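import Mathlib
import Vale.Agent.P217.Interfaces

/-!
# P217 block I: formal facts on the lift of the Honda law

The logarithm determines the law, so the law is commutative, commutes with the scalars
fixed by the Q-th power, and satisfies the truncated logarithm identity.
-/

noncomputable section

namespace Vale.Agent.P217.I

open scoped Classical
open Finsupp (single)

variable {p : ℕ} [Fact p.Prime] {h : ℕ}

/-- The logarithm of the Honda law of height h. -/
def hondaLog (p : ℕ) [Fact p.Prime] (h : ℕ) : PowerSeries ℚ_[p] :=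
  PowerSeries.mk fun N =>
    if N = p ^ Nat.log p N ∧ h ∣ Nat.log p N then 1 / (p : ℚ_[p]) ^ (Nat.log p N / h) else 0

theorem coeff_hondaLog_pow (hh : 1 ≤ h) (i : ℕ) :
    PowerSeries.coeff ((p ^ h) ^ i) (hondaLog p h) = 1 / (p : ℚ_[p]) ^ i := by
  have hp : 1 < p := (Fact.out : p.Prime).one_lt
  rw [hondaLog, PowerSeries.coeff_mk, ← pow_mul, Nat.log_pow hp,
    if_pos ⟨rfl, Dvd.intro i rfl⟩, Nat.mul_div_cancel_left i hh]

theorem eq_pow_of_coeff_hondaLog_ne {N : ℕ}
    (hN : PowerSeries.coeff N (hondaLog p h) ≠ 0) : ∃ i, N = (p ^ h) ^ i := by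
  rw [hondaLog, PowerSeries.coeff_mk] at hN
  split_ifs at hN with hc
  · obtain ⟨h1, i, hi⟩ := hc
    exact ⟨i, by rw [← pow_mul, ← hi]; exact h1⟩
  · exact absurd rfl hN

theorem constantCoeff_hondaLog : PowerSeries.constantCoeff (hondaLog p h) = 0 := by
  rw [← PowerSeries.coeff_zero_eq_constantCoeff_apply]
  by_contra hne
  obtain ⟨i, hi⟩ := eq_pow_of_coeff_hondaLog_ne hne
  exact (pow_ne_zero i (pow_ne_zero h (Fact.out : p.Prime).ne_zero)) hi.symm

theorem coeff_one_hondaLog (hh : 1 ≤ h) : PowerSeries.coeff 1 (hondaLog p h) = 1 := by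
  simpa using coeff_hondaLog_pow (p := p) hh 0

theorem log_subst_injective {K : Type} [Field K] {f : PowerSeries K}
    (h0 : PowerSeries.constantCoeff f = 0) (h1 : PowerSeries.coeff 1 f = 1) {σ : Type}
    {A B : MvPowerSeries σ K} (hA : MvPowerSeries.constantCoeff A = 0)
    (hB : MvPowerSeries.constantCoeff B = 0)
    (e : PowerSeries.subst A f = PowerSeries.subst B f) : A = B := by
  have : Invertible (PowerSeries.coeff 1 f) := h1 ▸ invertibleOne
  have hf : PowerSeries.HasSubst f := PowerSeries.HasSubst.of_constantCoeff_zero' h0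
  have cancel : ∀ Z : MvPowerSeries σ K, MvPowerSeries.constantCoeff Z = 0 →
      PowerSeries.subst (PowerSeries.subst Z f) f.substInv = Z := fun Z hZ => by
    have hZ' := PowerSeries.HasSubst.of_constantCoeff_zero hZ
    rw [← PowerSeries.subst_comp_subst_apply hf hZ', PowerSeries.subst_substInv_left f h0,
      PowerSeries.subst_X hZ']
  rw [← cancel A hA, e, cancel B hB]

variable {F : FormalGroup ℤ_[p]}

/-- The logarithm identity over the field. -/
theorem log_identity (hF : IsHondaLift h F) :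
    PowerSeries.subst (F.map (algebraMap ℤ_[p] ℚ_[p])).toPowerSeries (hondaLog p h) =
      PowerSeries.subst (MvPowerSeries.X 0 : MvPowerSeries (Fin 2) ℚ_[p]) (hondaLog p h) +
        PowerSeries.subst (MvPowerSeries.X 1 : MvPowerSeries (Fin 2) ℚ_[p]) (hondaLog p h) :=
  hF

theorem map_inj {σ : Type} {a b : MvPowerSeries σ ℤ_[p]}
    (e : MvPowerSeries.map (algebraMap ℤ_[p] ℚ_[p]) a =
      MvPowerSeries.map (algebraMap ℤ_[p] ℚ_[p]) b) : a = b := by
  ext k
  exact FaithfulSMul.algebraMap_injective ℤ_[p] ℚ_[p]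
    (by simpa using congrArg (MvPowerSeries.coeff k) e)

theorem hasSubst_two {R : Type} [CommRing R] {σ : Type} {a b : MvPowerSeries σ R}
    (ha : MvPowerSeries.constantCoeff a = 0) (hb : MvPowerSeries.constantCoeff b = 0) :
    MvPowerSeries.HasSubst ![a, b] :=
  MvPowerSeries.hasSubst_of_constantCoeff_zero fun s => by fin_cases s <;> simpa

theorem isComm_of_lift (hh : 1 ≤ h) (hF : IsHondaLift h F) : F.IsComm := by
  refine ⟨map_inj ?_⟩
  set G := F.map (algebraMap ℤ_[p] ℚ_[p]) with hG
  have hXX : MvPowerSeries.HasSubst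
      ![(MvPowerSeries.X 1 : MvPowerSeries (Fin 2) ℚ_[p]), MvPowerSeries.X 0] :=
    hasSubst_two (by simp) (by simp)
  have hXX' : MvPowerSeries.HasSubst
      ![(MvPowerSeries.X 1 : MvPowerSeries (Fin 2) ℤ_[p]), MvPowerSeries.X 0] :=
    hasSubst_two (by simp) (by simp)
  have hswap : MvPowerSeries.constantCoeff (MvPowerSeries.subst
      ![(MvPowerSeries.X 1 : MvPowerSeries (Fin 2) ℚ_[p]), MvPowerSeries.X 0] G.toPowerSeries) = 0 :=
    MvPowerSeries.constantCoeff_subst_eq_zero hXX (fun s => by fin_cases s <;> simp)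
      G.zero_constantCoeff
  have key : G.toPowerSeries = MvPowerSeries.subst
      ![(MvPowerSeries.X 1 : MvPowerSeries (Fin 2) ℚ_[p]), MvPowerSeries.X 0] G.toPowerSeries := by
    refine log_subst_injective constantCoeff_hondaLog (coeff_one_hondaLog hh)
      G.zero_constantCoeff hswap ?_
    have hG0 := PowerSeries.HasSubst.of_constantCoeff_zero G.zero_constantCoeff
    have h0 : PowerSeries.HasSubst (MvPowerSeries.X 0 : MvPowerSeries (Fin 2) ℚ_[p]) :=
      PowerSeries.HasSubst.of_constantCoeff_zero (by simp)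
    have h1 : PowerSeries.HasSubst (MvPowerSeries.X 1 : MvPowerSeries (Fin 2) ℚ_[p]) :=
      PowerSeries.HasSubst.of_constantCoeff_zero (by simp)
    have e := congrArg (MvPowerSeries.subst
      ![(MvPowerSeries.X 1 : MvPowerSeries (Fin 2) ℚ_[p]), MvPowerSeries.X 0]) (log_identity hF)
    rw [MvPowerSeries.subst_add hXX, PowerSeries.subst_def, PowerSeries.subst_def,
      PowerSeries.subst_def, MvPowerSeries.subst_comp_subst_apply hG0.const hXX,
      MvPowerSeries.subst_comp_subst_apply h0.const hXX,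
      MvPowerSeries.subst_comp_subst_apply h1.const hXX] at e
    rw [log_identity hF, PowerSeries.subst_def, PowerSeries.subst_def, PowerSeries.subst_def, e]
    simp only [MvPowerSeries.subst_X hXX, Matrix.cons_val_zero, Matrix.cons_val_one,
      Matrix.cons_val_fin_one]
    exact add_comm _ _
  rw [MvPowerSeries.map_subst hXX', show (fun s => MvPowerSeries.map (algebraMap ℤ_[p] ℚ_[p])
      (![(MvPowerSeries.X 1 : MvPowerSeries (Fin 2) ℤ_[p]), MvPowerSeries.X 0] s)) =
      ![(MvPowerSeries.X 1 : MvPowerSeries (Fin 2) ℚ_[p]), MvPowerSeries.X 0] by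
    funext s
    fin_cases s <;> simp]
  exact key

theorem isComm_map {R S : Type} [CommRing R] [CommRing S] (G : FormalGroup R) [hG : G.IsComm]
    (φ : R →+* S) : (G.map φ).IsComm := by
  refine ⟨?_⟩
  show MvPowerSeries.map φ G.toPowerSeries = _
  nth_rw 1 [hG.comm]
  rw [MvPowerSeries.map_subst (hasSubst_two (by simp) (by simp))]
  congr 1
  funext s
  fin_cases s <;> simp

/-- The truncated logarithm identity, cleared of denominators. -/
def logDefect (h : ℕ) (F : FormalGroup ℤ_[p]) (M : ℕ) : MvPowerSeries (Fin 2) ℤ_[p] :=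
  ∑ i ∈ Finset.range M, MvPowerSeries.C ((p : ℤ_[p]) ^ (M - i)) *
    (F.toPowerSeries ^ (p ^ h) ^ i - MvPowerSeries.X 0 ^ (p ^ h) ^ i
      - MvPowerSeries.X 1 ^ (p ^ h) ^ i)

theorem coeff_pow_eq_zero {σ : Type} {R : Type} [CommRing R] (g : MvPowerSeries σ R)
    (hg : MvPowerSeries.constantCoeff g = 0) {k : σ →₀ ℕ} {N : ℕ} (hk : k.degree < N) :
    MvPowerSeries.coeff k (g ^ N) = 0 :=
  MvPowerSeries.coeff_eq_zero_of_constantCoeff_nilpotent (m := 1) (by simpa using hg) (by omega)

/-- In low degrees only the first terms of the logarithm count. -/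
theorem coeff_subst_hondaLog (hh : 1 ≤ h) {σ : Type} (g : MvPowerSeries σ ℚ_[p])
    (hg : MvPowerSeries.constantCoeff g = 0) {k : σ →₀ ℕ} {M : ℕ}
    (hk : k.degree < (p ^ h) ^ M) :
    MvPowerSeries.coeff k (PowerSeries.subst g (hondaLog p h)) =
      ∑ i ∈ Finset.range M, (1 / (p : ℚ_[p]) ^ i) * MvPowerSeries.coeff k (g ^ (p ^ h) ^ i) := by
  have hQ : 2 ≤ p ^ h := le_trans (Fact.out : p.Prime).two_le (Nat.le_self_pow (by omega) p)
  rw [PowerSeries.coeff_subst (PowerSeries.HasSubst.of_constantCoeff_zero hg),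
    finsum_eq_sum_of_support_subset _ (s := (Finset.range M).image fun i => (p ^ h) ^ i) ?_]
  · rw [Finset.sum_image fun a _ b _ e => Nat.pow_right_injective hQ e]
    exact Finset.sum_congr rfl fun i _ => by rw [coeff_hondaLog_pow hh, smul_eq_mul]
  · intro d hd
    rw [Function.mem_support, smul_eq_mul] at hd
    obtain ⟨i, rfl⟩ := eq_pow_of_coeff_hondaLog_ne (left_ne_zero_of_mul hd)
    simp only [Finset.coe_image, Finset.coe_range, Set.mem_image, Set.mem_Iio]
    refine ⟨i, lt_of_not_ge fun hM => right_ne_zero_of_mul hd ?_, rfl⟩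
    exact coeff_pow_eq_zero g hg (lt_of_lt_of_le hk (Nat.pow_le_pow_right (by omega) hM))

theorem coeff_logDefect (hh : 1 ≤ h) (hF : IsHondaLift h F) (M : ℕ) (k : Fin 2 →₀ ℕ)
    (hk : k.degree < (p ^ h) ^ M) : MvPowerSeries.coeff k (logDefect h F M) = 0 := by
  have e := congrArg (MvPowerSeries.coeff k) (log_identity hF)
  rw [map_add, coeff_subst_hondaLog hh _ (F.map _).zero_constantCoeff hk,
    coeff_subst_hondaLog hh _ (by simp) hk, coeff_subst_hondaLog hh _ (by simp) hk] at e
  refine FaithfulSMul.algebraMap_injective ℤ_[p] ℚ_[p] ?_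
  have hp : (p : ℚ_[p]) ≠ 0 := Nat.cast_ne_zero.mpr (Fact.out : p.Prime).ne_zero
  simp only [logDefect, map_sum, MvPowerSeries.coeff_C_mul, map_sub]
  simp only [map_mul, map_sub, map_zero, ← MvPowerSeries.coeff_map]
  simp only [map_pow, MvPowerSeries.map_X, map_natCast]
  have e' : (p : ℚ_[p]) ^ M * (∑ i ∈ Finset.range M, (1 / (p : ℚ_[p]) ^ i) *
      MvPowerSeries.coeff k ((F.map (algebraMap ℤ_[p] ℚ_[p])).toPowerSeries ^ (p ^ h) ^ i) -
      (∑ i ∈ Finset.range M, (1 / (p : ℚ_[p]) ^ i) *
        MvPowerSeries.coeff k ((MvPowerSeries.X 0 : MvPowerSeries (Fin 2) ℚ_[p]) ^ (p ^ h) ^ i) +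
      ∑ i ∈ Finset.range M, (1 / (p : ℚ_[p]) ^ i) *
        MvPowerSeries.coeff k ((MvPowerSeries.X 1 : MvPowerSeries (Fin 2) ℚ_[p]) ^ (p ^ h) ^ i))) = 0 := by
    rw [e, sub_self, mul_zero]
  refine (Eq.trans ?_ e')
  rw [← Finset.sum_add_distrib, ← Finset.sum_sub_distrib, Finset.mul_sum]
  refine Finset.sum_congr rfl fun i hi => ?_
  rw [pow_sub₀ _ hp (Finset.mem_range.mp hi).le, FormalGroup.map]
  field_simp
  ring

/-- Only degrees congruent to 1 modulo Q - 1 occur. -/
theorem degree_of_coeff_ne (hh : 1 ≤ h) (hF : IsHondaLift h F) (k : Fin 2 →₀ ℕ)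
    (hk : MvPowerSeries.coeff k F.toPowerSeries ≠ 0) :
    1 ≤ k.degree ∧ (p ^ h - 1) ∣ (k.degree - 1) := by
  have hQ : 2 ≤ p ^ h := le_trans (Fact.out : p.Prime).two_le (Nat.le_self_pow (by omega) p)
  have hk1 : 1 ≤ k.degree := by
    rw [Nat.one_le_iff_ne_zero]
    intro h0
    rw [Finsupp.degree_eq_zero_iff] at h0
    subst h0
    exact hk (by rw [MvPowerSeries.coeff_zero_eq_constantCoeff_apply]; exact F.zero_constantCoeff)
  refine ⟨hk1, ?_⟩
  let K := AlgebraicClosure ℚ_[p]
  have : NeZero ((p ^ h - 1 : ℕ) : K) :=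
    ⟨Nat.cast_ne_zero.mpr (by omega)⟩
  obtain ⟨ζ, hζ⟩ := IsAlgClosed.exists_root (Polynomial.cyclotomic (p ^ h - 1) K)
    (ne_of_gt (Polynomial.degree_cyclotomic_pos _ K (by omega)))
  rw [Polynomial.isRoot_cyclotomic_iff] at hζ
  set φ : ℤ_[p] →+* K := (algebraMap ℚ_[p] K).comp (algebraMap ℤ_[p] ℚ_[p]) with hφ
  set g : PowerSeries K := PowerSeries.map (algebraMap ℚ_[p] K) (hondaLog p h) with hg
  have hgz : PowerSeries.rescale ζ g = PowerSeries.C ζ * g := by
    ext N
    rw [PowerSeries.coeff_rescale, PowerSeries.coeff_C_mul, hg, PowerSeries.coeff_map]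
    by_cases hN : PowerSeries.coeff N (hondaLog p h) = 0
    · simp [hN]
    · obtain ⟨i, rfl⟩ := eq_pow_of_coeff_hondaLog_ne hN
      congr 1
      induction i with
      | zero => simp
      | succ i ih =>
        rw [pow_succ, pow_mul, ih (by rw [coeff_hondaLog_pow hh]; simp [(Fact.out : p.Prime).ne_zero])]
        rw [show p ^ h = (p ^ h - 1) + 1 by omega, pow_succ, hζ.pow_eq_one, one_mul]
  set G := F.map φ
  set Z : Fin 2 → K := fun _ => ζ
  have eG : MvPowerSeries.rescale Z G.toPowerSeries = MvPowerSeries.C ζ * G.toPowerSeries := by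
    have hr0 : MvPowerSeries.constantCoeff (MvPowerSeries.rescale Z G.toPowerSeries) = 0 := by
      rw [← MvPowerSeries.coeff_zero_eq_constantCoeff_apply, MvPowerSeries.coeff_rescale]
      simp [G.zero_constantCoeff]
    refine log_subst_injective (f := g) ?_ ?_ hr0 (by simp [G.zero_constantCoeff]) ?_
    · rw [hg, ← PowerSeries.coeff_zero_eq_constantCoeff_apply, PowerSeries.coeff_map,
        PowerSeries.coeff_zero_eq_constantCoeff_apply, constantCoeff_hondaLog, map_zero]
    · rw [hg, PowerSeries.coeff_map, coeff_one_hondaLog hh, map_one]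
    have eK : PowerSeries.subst G.toPowerSeries g =
        PowerSeries.subst (MvPowerSeries.X 0 : MvPowerSeries (Fin 2) K) g +
          PowerSeries.subst (MvPowerSeries.X 1 : MvPowerSeries (Fin 2) K) g := by
      have e := congrArg (MvPowerSeries.map (algebraMap ℚ_[p] K)) (log_identity hF)
      rw [map_add, PowerSeries.map_subst (PowerSeries.HasSubst.of_constantCoeff_zero
          (F.map _).zero_constantCoeff),
        PowerSeries.map_subst (PowerSeries.HasSubst.of_constantCoeff_zero (by simp)),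
        PowerSeries.map_subst (PowerSeries.HasSubst.of_constantCoeff_zero (by simp)),
        MvPowerSeries.map_X, MvPowerSeries.map_X] at e
      rw [show G.toPowerSeries = MvPowerSeries.map (algebraMap ℚ_[p] K)
        (F.map (algebraMap ℤ_[p] ℚ_[p])).toPowerSeries by
          ext m; simp [G, hφ, MvPowerSeries.coeff_map]]
      exact e
    have scale : ∀ A : MvPowerSeries (Fin 2) K, MvPowerSeries.constantCoeff A = 0 →
        PowerSeries.subst (MvPowerSeries.C ζ * A) g = MvPowerSeries.C ζ * PowerSeries.subst A g := by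
      intro A hA
      have hA' := PowerSeries.HasSubst.of_constantCoeff_zero hA
      have hX : PowerSeries.HasSubst (PowerSeries.C ζ * PowerSeries.X : PowerSeries K) :=
        PowerSeries.HasSubst.of_constantCoeff_zero' (by simp)
      have e1 : PowerSeries.subst A (PowerSeries.C ζ * g) =
          MvPowerSeries.C ζ * PowerSeries.subst A g := by
        rw [PowerSeries.subst_mul hA', PowerSeries.subst_C]
      rw [← e1, ← hgz, PowerSeries.rescale_eq_subst, PowerSeries.smul_eq_C_mul,
        PowerSeries.subst_comp_subst_apply hX hA', PowerSeries.subst_mul hA', PowerSeries.subst_X hA',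
        PowerSeries.subst_C]
    rw [scale _ G.zero_constantCoeff, eK, mul_add, ← scale _ (by simp), ← scale _ (by simp),
      MvPowerSeries.rescale_eq_subst, PowerSeries.subst_def]
    have hW : MvPowerSeries.HasSubst (Z • MvPowerSeries.X : Fin 2 → MvPowerSeries (Fin 2) K) :=
      MvPowerSeries.hasSubst_of_constantCoeff_zero fun s => by simp
    rw [← MvPowerSeries.subst_comp_subst_apply
      (PowerSeries.HasSubst.of_constantCoeff_zero G.zero_constantCoeff).const hW,
      ← PowerSeries.subst_def, eK, MvPowerSeries.subst_add hW, PowerSeries.subst_def,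
      PowerSeries.subst_def,
      MvPowerSeries.subst_comp_subst_apply
        (PowerSeries.HasSubst.of_constantCoeff_zero (by simp)).const hW,
      MvPowerSeries.subst_comp_subst_apply
        (PowerSeries.HasSubst.of_constantCoeff_zero (by simp)).const hW]
    simp only [MvPowerSeries.subst_X hW, PowerSeries.subst_def, Pi.smul_apply', Z,
      MvPowerSeries.smul_eq_C_mul]
  have := congrArg (MvPowerSeries.coeff k) eG
  rw [MvPowerSeries.coeff_rescale, MvPowerSeries.coeff_C_mul] at this
  have hne : MvPowerSeries.coeff k G.toPowerSeries ≠ 0 := by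
    simp only [G, FormalGroup.map, MvPowerSeries.coeff_map]
    exact fun h0 => hk (FaithfulSMul.algebraMap_injective ℤ_[p] ℚ_[p]
      ((algebraMap ℚ_[p] K).injective (by simpa [hφ] using h0)))
  have hprod : (k.prod fun s e => Z s ^ e) = ζ ^ k.degree := by
    rw [Finsupp.prod, Finset.prod_pow_eq_pow_sum]; rfl
  rw [hprod] at this
  have hz := mul_right_cancel₀ hne this
  refine (hζ.pow_eq_one_iff_dvd _).mp ?_
  have hζ0 : ζ ≠ 0 := hζ.ne_zero (by omega)
  refine mul_right_cancel₀ hζ0 ?_
  rw [← pow_succ, one_mul, show k.degree - 1 + 1 = k.degree by omega]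
  exact hz

/-- Scalars fixed by the Q-th power commute with the law. -/
theorem rescale_law (hh : 1 ≤ h) (hF : IsHondaLift h F) {R : Type} [CommRing R]
    (φ : ℤ_[p] →+* R) (ω : R) (hω : ω ^ p ^ h = ω) :
    MvPowerSeries.rescale (fun _ => ω) (F.map φ).toPowerSeries =
      MvPowerSeries.C ω * (F.map φ).toPowerSeries := by
  ext k
  rw [MvPowerSeries.coeff_rescale, MvPowerSeries.coeff_C_mul, FormalGroup.map,
    MvPowerSeries.coeff_map]
  by_cases hk : MvPowerSeries.coeff k F.toPowerSeries = 0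
  · simp [hk]
  · obtain ⟨h1, d, hd⟩ := degree_of_coeff_ne hh hF k hk
    congr 1
    rw [Finsupp.prod, Finset.prod_pow_eq_pow_sum]
    show ω ^ k.degree = ω
    have hQ : 1 ≤ p ^ h := Nat.one_le_pow _ _ (Fact.out : p.Prime).pos
    rw [show k.degree = (p ^ h - 1) * d + 1 by omega]
    clear hd
    induction d with
    | zero => simp
    | succ d ih =>
      rw [show (p ^ h - 1) * (d + 1) + 1 = ((p ^ h - 1) * d + 1) + (p ^ h - 1) by ring, pow_add, ih,
        ← pow_succ', show p ^ h - 1 + 1 = p ^ h by omega, hω]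

end Vale.Agent.P217.I
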