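import Mathlib
import Vale.Agent.P217.Interfaces
import Vale.Agent.P217.Eval
import Vale.Agent.P217.I.Law

/-!
# P217 block I: the linearisation

`linVec` is additive for the Honda law, compatible with fixed scalars and with the p-th power,
bounded on closed discs, and bounded below away from ties.
-/

noncomputable section

namespace Vale.Agent.P217.I

open scoped Classical Topology
open Filter Vale.Agent.P217

variable {p : ℕ} [Fact p.Prime] {C : Type} [NontriviallyNormedField C] [IsUltrametricDist C]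
  [IsAlgClosed C] [CharP C p] (T : Untilt p C) {k : ℕ}

theorem prime_pos : 0 < p := (Fact.out : p.Prime).pos

theorem inv_p_lt_one : ((p : ℝ))⁻¹ < 1 :=
  inv_lt_one_of_one_lt₀ (by exact_mod_cast (Fact.out : p.Prime).one_lt)

theorem norm_p : ‖(p : PadicComplex p)‖ = (p : ℝ)⁻¹ := by
  rw [← map_natCast (algebraMap ℚ_[p] (PadicComplex p)) p]
  rw [norm_algebraMap', Padic.norm_p]

/-! ## the sharp map -/

theorem sharp_zero : T.sharp 0 = 0 := norm_eq_zero.mp (by rw [T.norm_sharp 0 (by simp)]; simp)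

theorem sharp_pow {a : C} (ha : ‖a‖ ≤ 1) : ∀ N : ℕ, T.sharp (a ^ N) = T.sharp a ^ N
  | 0 => by simp [T.sharp_one]
  | N + 1 => by
    rw [pow_succ, T.sharp_mul _ _ (by rw [norm_pow]; exact pow_le_one₀ (norm_nonneg _) ha) ha,
      sharp_pow ha N, pow_succ]

theorem norm_add_three {K : Type} [SeminormedAddGroup K] [IsUltrametricDist K] (a b c : K)
    {B : ℝ} (ha : ‖a‖ ≤ B) (hb : ‖b‖ ≤ B) (hc : ‖c‖ ≤ B) : ‖a + b + c‖ ≤ B :=
  le_trans (IsUltrametricDist.norm_add_le_max _ _)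
    (max_le (le_trans (IsUltrametricDist.norm_add_le_max _ _) (max_le ha hb)) hc)

/-- Points close to each other have close images. -/
theorem sharp_close {a b : C} (ha : ‖a‖ ≤ 1) (hb : ‖b‖ ≤ 1) (hab : ‖a - b‖ ≤ (p : ℝ)⁻¹) :
    ‖T.sharp a - T.sharp b‖ ≤ (p : ℝ)⁻¹ := by
  have hd : ‖a - b‖ ≤ 1 := hab.trans inv_p_lt_one.le
  have h1 := T.sharp_add b (a - b) hb hd
  rw [add_sub_cancel] at h1
  have h2 : ‖T.sharp (a - b)‖ ≤ (p : ℝ)⁻¹ := by rw [T.norm_sharp _ hd]; exact hab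
  calc ‖T.sharp a - T.sharp b‖
      = ‖(T.sharp a - (T.sharp b + T.sharp (a - b))) + T.sharp (a - b)‖ := by congr 1; ring
    _ ≤ _ := le_trans (IsUltrametricDist.norm_add_le_max _ _) (max_le h1 h2)

theorem sharp_natCast (m : ℕ) :
    ‖T.sharp (m : C) - (m : PadicComplex p)‖ ≤ (p : ℝ)⁻¹ := by
  induction m with
  | zero => simp [sharp_zero]
  | succ m ih =>
    have h1 := T.sharp_add (m : C) 1 (IsUltrametricDist.norm_natCast_le_one C m) (by simp)
    rw [T.sharp_one] at h1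
    push_cast
    calc ‖T.sharp ((m : C) + 1) - ((m : PadicComplex p) + 1)‖
        = ‖(T.sharp ((m : C) + 1) - (T.sharp (m : C) + 1)) + (T.sharp (m : C) - m)‖ := by
          congr 1; ring
      _ ≤ _ := le_trans (IsUltrametricDist.norm_add_le_max _ _) (max_le h1 ih)

theorem sharp_sum {ι : Type} (s : Finset ι) (a : ι → C) (ha : ∀ i ∈ s, ‖a i‖ ≤ 1) :
    ‖T.sharp (∑ i ∈ s, a i) - ∑ i ∈ s, T.sharp (a i)‖ ≤ (p : ℝ)⁻¹ := by
  induction s using Finset.induction with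
  | empty => simp [sharp_zero]
  | @insert i s hi ih =>
    have hs : ∀ x ∈ s, ‖a x‖ ≤ 1 := fun x hx => ha x (Finset.mem_insert_of_mem hx)
    rw [Finset.sum_insert hi, Finset.sum_insert hi]
    have h1 := T.sharp_add (a i) (∑ x ∈ s, a x) (ha i (Finset.mem_insert_self _ _))
      (IsUltrametricDist.norm_sum_le_of_forall_le_of_nonneg zero_le_one hs)
    calc ‖T.sharp (a i + ∑ x ∈ s, a x) - (T.sharp (a i) + ∑ x ∈ s, T.sharp (a x))‖
        = ‖(T.sharp (a i + ∑ x ∈ s, a x) - (T.sharp (a i) + T.sharp (∑ x ∈ s, a x))) +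
            (T.sharp (∑ x ∈ s, a x) - ∑ x ∈ s, T.sharp (a x))‖ := by congr 1; ring
      _ ≤ _ := le_trans (IsUltrametricDist.norm_add_le_max _ _) (max_le h1 (ih hs))

/-! ## Frobenius powers -/

omit [NontriviallyNormedField C] [IsUltrametricDist C] [IsAlgClosed C] [CharP C p] in
theorem pow_p_injective {F : Type} [Field F] [CharP F p] (a : ℕ) :
    Function.Injective fun x : F => x ^ p ^ a :=
  fun x y e => (iterateFrobenius F p a).injective (by simpa [iterateFrobenius_def] using e)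

omit [IsUltrametricDist C] in
theorem ppow_ofNat (y : C) (a : ℕ) : ppow (p := p) y (a : ℤ) = y ^ p ^ a := rfl

omit [IsUltrametricDist C] in
theorem ppow_zero (y : C) : ppow (p := p) y 0 = y := by
  simpa using ppow_ofNat (p := p) y 0

omit [IsUltrametricDist C] in
theorem ppow_succ (y : C) (m : ℤ) : ppow (p := p) y (m + 1) = ppow (p := p) y m ^ p := by
  have key : ∀ z : C, (frobeniusEquiv C p).symm z ^ p = z := fun z => by
    rw [← frobenius_def]
    exact (frobeniusEquiv C p).apply_symm_apply z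
  match m with
  | (Int.ofNat a) =>
    show ppow (p := p) y ((a : ℤ) + 1) = ppow (p := p) y (a : ℤ) ^ p
    rw [← Nat.cast_one, ← Nat.cast_add, ppow_ofNat, ppow_ofNat, ← pow_mul, ← pow_succ]
  | (Int.negSucc 0) =>
    show ppow (p := p) y (0 : ℤ) = (frobeniusEquiv C p).symm^[1] y ^ p
    rw [ppow_zero, Function.iterate_one, key]
  | (Int.negSucc (a + 1)) =>
    show (frobeniusEquiv C p).symm^[a + 1] y = (frobeniusEquiv C p).symm^[a + 1 + 1] y ^ p
    rw [Function.iterate_succ_apply' _ (a + 1), key]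

omit [IsUltrametricDist C] in
theorem ppow_add_nat (y : C) (m : ℤ) :
    ∀ a : ℕ, ppow (p := p) y (m + a) = ppow (p := p) y m ^ p ^ a
  | 0 => by simp
  | a + 1 => by
    rw [Nat.cast_succ, ← add_assoc, ppow_succ, ppow_add_nat y m a, ← pow_mul, ← pow_succ]

omit [IsUltrametricDist C] in
theorem ppow_ext {y z : C} {m : ℤ} (a b : ℕ) (hab : m + a = b) (e : z ^ p ^ a = y ^ p ^ b) :
    z = ppow (p := p) y m := by
  refine pow_p_injective (p := p) a ?_
  show z ^ p ^ a = ppow (p := p) y m ^ p ^ a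
  rw [← ppow_add_nat, hab, ppow_ofNat, e]

omit [IsUltrametricDist C] in
theorem exists_nat_shift (m : ℤ) : ∃ a b : ℕ, m + a = b :=
  ⟨m.natAbs, (m + m.natAbs).toNat, by omega⟩

omit [IsUltrametricDist C] in
theorem ppow_mul_base (x y : C) (m : ℤ) :
    ppow (p := p) (x * y) m = ppow (p := p) x m * ppow (p := p) y m := by
  obtain ⟨a, b, hab⟩ := exists_nat_shift m
  refine (ppow_ext a b hab ?_).symm
  rw [mul_pow, mul_pow, ← ppow_add_nat, ← ppow_add_nat, hab, ppow_ofNat, ppow_ofNat]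

omit [IsUltrametricDist C] in
theorem ppow_pow_p (y : C) (m : ℤ) : ppow (p := p) (y ^ p) m = ppow (p := p) y (m + 1) := by
  obtain ⟨a, b, hab⟩ := exists_nat_shift m
  refine (ppow_ext a b hab ?_).symm
  rw [← ppow_add_nat, show m + 1 + (a : ℤ) = ((b + 1 : ℕ) : ℤ) by omega, ppow_ofNat, ← pow_mul,
    ← pow_succ']

omit [IsUltrametricDist C] in
theorem norm_ppow (y : C) (m : ℤ) :
    ‖ppow (p := p) y m‖ = ‖y‖ ^ ((p : ℝ) ^ m) := by
  obtain ⟨a, b, hab⟩ := exists_nat_shift m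
  have e := congrArg norm (ppow_add_nat (p := p) y m a)
  rw [hab, ppow_ofNat, norm_pow, norm_pow] at e
  have hp : (0 : ℝ) < p := by exact_mod_cast prime_pos
  have hm : (p : ℝ) ^ m = ((p ^ b : ℕ) : ℝ) * (((p ^ a : ℕ) : ℝ))⁻¹ := by
    push_cast
    rw [show m = (b : ℤ) - (a : ℤ) by omega, zpow_sub₀ hp.ne', zpow_natCast, zpow_natCast,
      div_eq_mul_inv]
  rw [hm, Real.rpow_mul (norm_nonneg _), Real.rpow_natCast, e,
    Real.pow_rpow_inv_natCast (norm_nonneg _) (pow_ne_zero _ prime_pos.ne')]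

omit [IsUltrametricDist C] in
theorem norm_ppow_le_one {y : C} (hy : ‖y‖ ≤ 1) (m : ℤ) : ‖ppow (p := p) y m‖ ≤ 1 := by
  rw [norm_ppow]
  exact Real.rpow_le_one (norm_nonneg _) hy (zpow_nonneg (Nat.cast_nonneg p) m)

omit [IsUltrametricDist C] in
theorem fixed_pow {F : Type} [Monoid F] {ω : F} (hω : ω ^ p ^ k = ω) :
    ∀ i : ℕ, ω ^ p ^ (k * i) = ω
  | 0 => by simp
  | i + 1 => by rw [mul_add, mul_one, pow_add, pow_mul, fixed_pow hω i, hω]

omit [IsUltrametricDist C] in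
theorem ppow_fixed {ω : C} (hω : ω ^ p ^ k = ω) (j : ℤ) (s : ℕ) :
    ppow (p := p) ω ((k : ℤ) * j + s) = ω ^ p ^ s := by
  refine (ppow_ext (k * j.natAbs) (k * (j + j.natAbs).toNat + s) ?_ ?_).symm
  · have e : ((j + j.natAbs).toNat : ℤ) = j + j.natAbs := by omega
    rw [Nat.cast_add, Nat.cast_mul, Nat.cast_mul, e]
    ring
  · rw [← pow_mul, mul_comm (p ^ s), pow_mul, fixed_pow hω, pow_add, pow_mul, fixed_pow hω]

/-! ## the size of the terms -/

variable (p k) in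
/-- Size of the term of index j. -/
def tv (s : ℕ) (ρ : ℝ) (j : ℤ) : ℝ := ρ ^ ((p : ℝ) ^ ((k : ℤ) * j + s)) * (p : ℝ) ^ j

/-- The term of index j. -/
def term (k s : ℕ) (y : C) (j : ℤ) : PadicComplex p :=
  T.sharp (ppow (p := p) y ((k : ℤ) * j + s)) * (p : PadicComplex p) ^ (-j)

theorem norm_term {y : C} (hy : ‖y‖ ≤ 1) (s : ℕ) (j : ℤ) :
    ‖term T k s y j‖ = tv p k s ‖y‖ j := by
  rw [term, norm_mul, T.norm_sharp _ (norm_ppow_le_one hy _), norm_ppow, norm_zpow, norm_p,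
    inv_zpow', neg_neg, tv]

theorem tv_nonneg (s : ℕ) {ρ : ℝ} (hρ : 0 ≤ ρ) (j : ℤ) : 0 ≤ tv p k s ρ j :=
  mul_nonneg (Real.rpow_nonneg hρ _) (zpow_nonneg (Nat.cast_nonneg p) _)

theorem tv_mono (s : ℕ) {ρ σ : ℝ} (hρ : 0 ≤ ρ) (h : ρ ≤ σ) (j : ℤ) :
    tv p k s ρ j ≤ tv p k s σ j :=
  mul_le_mul_of_nonneg_right (Real.rpow_le_rpow hρ h (zpow_nonneg (Nat.cast_nonneg p) _))
    (zpow_nonneg (Nat.cast_nonneg p) _)

theorem mul_le_two_pow (L j : ℕ) (hj : 4 * L ≤ j) : L * j ≤ 2 ^ j := by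
  have h1 : (j / 2 + 1) * (j - j / 2 + 1) ≤ 2 ^ (j / 2) * 2 ^ (j - j / 2) :=
    Nat.mul_le_mul Nat.lt_two_pow_self Nat.lt_two_pow_self
  rw [← pow_add, show j / 2 + (j - j / 2) = j by omega] at h1
  have h2 : L * j ≤ (2 * L) * (j - j / 2 + 1) := by
    calc L * j ≤ L * (2 * (j - j / 2 + 1)) := Nat.mul_le_mul_left L (by omega)
      _ = _ := by ring
  exact le_trans h2 (le_trans (Nat.mul_le_mul_right _ (by omega)) h1)

theorem tendsto_tv_nat (hk : 1 ≤ k) (s : ℕ) {ρ : ℝ} (hρ : 0 ≤ ρ) (hρ1 : ρ < 1) :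
    Tendsto (fun a : ℕ => tv p k s ρ (a : ℤ)) atTop (𝓝 0) := by
  have hp : (0 : ℝ) < p := by exact_mod_cast prime_pos
  obtain ⟨L, hL⟩ := exists_pow_lt_of_lt_one (inv_pos.mpr hp) hρ1
  have hq : ρ ^ L * p < 1 := by
    have := mul_lt_mul_of_pos_right hL hp
    rwa [inv_mul_cancel₀ hp.ne'] at this
  refine squeeze_zero' (Eventually.of_forall fun a => tv_nonneg s hρ _)
    ?_ (tendsto_pow_atTop_nhds_zero_of_lt_one (mul_nonneg (pow_nonneg hρ L) hp.le) hq)
  filter_upwards [eventually_ge_atTop (4 * L)] with a ha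
  rw [tv, mul_pow, ← pow_mul, zpow_natCast,
    show ((k : ℤ) * (a : ℤ) + s) = ((k * a + s : ℕ) : ℤ) by push_cast; ring, zpow_natCast,
    ← Nat.cast_pow p (k * a + s), Real.rpow_natCast]
  refine mul_le_mul_of_nonneg_right (pow_le_pow_of_le_one hρ hρ1.le ?_) (pow_nonneg hp.le _)
  calc L * a ≤ 2 ^ a := mul_le_two_pow L a ha
    _ ≤ p ^ a := Nat.pow_le_pow_left (Fact.out : p.Prime).two_le a
    _ ≤ p ^ (k * a + s) := Nat.pow_le_pow_right prime_pos
        (le_trans (Nat.le_mul_of_pos_left a hk) (Nat.le_add_right _ _))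

theorem tendsto_tv (hk : 1 ≤ k) (s : ℕ) {ρ : ℝ} (hρ : 0 ≤ ρ) (hρ1 : ρ < 1) :
    Tendsto (tv p k s ρ) cofinite (𝓝 0) := by
  rw [Int.cofinite_eq, tendsto_sup]
  constructor
  · have hp1 : (1 : ℝ) < p := by exact_mod_cast (Fact.out : p.Prime).one_lt
    have hb : Tendsto (fun j : ℤ => (p : ℝ) ^ j) atBot (𝓝 0) := by
      rw [← map_neg_atTop, ← Nat.map_cast_int_atTop, tendsto_map'_iff, tendsto_map'_iff]
      simpa [Function.comp_def, inv_pow, Pi.inv_def] using (tendsto_pow_atTop_atTop_of_one_lt hp1).inv_tendsto_atTop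
    exact squeeze_zero (fun j => tv_nonneg s hρ j) (fun j =>
      mul_le_of_le_one_left (zpow_nonneg (Nat.cast_nonneg p) _)
        (Real.rpow_le_one hρ hρ1.le (zpow_nonneg (Nat.cast_nonneg p) _))) hb
  · rw [← Nat.map_cast_int_atTop, tendsto_map'_iff]
    exact tendsto_tv_nat hk s hρ hρ1

theorem summable_term (hk : 1 ≤ k) {y : C} (hy : ‖y‖ < 1) (s : ℕ) :
    Summable (term T k s y) := by
  refine NonarchimedeanAddGroup.summable_of_tendsto_cofinite_zero ?_
  rw [tendsto_zero_iff_norm_tendsto_zero]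
  simp only [norm_term T hy.le]
  exact tendsto_tv hk s (norm_nonneg y) hy

theorem hasSum_linVec (hk : 1 ≤ k) {y : C} (hy : ‖y‖ < 1) (s : Fin k) :
    HasSum (term T k s y) (linVec T k y s) :=
  (summable_term T hk hy s).hasSum

theorem linVec_zero : linVec T k (0 : C) = 0 := by
  funext s
  show ∑' j : ℤ, _ = (0 : PadicComplex p)
  refine (tsum_congr fun j => ?_).trans tsum_zero
  have : ppow (p := p) (0 : C) ((k : ℤ) * j + (s : ℕ)) = 0 := by
    rw [← norm_eq_zero, norm_ppow, norm_zero, Real.zero_rpow]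
    exact zpow_ne_zero _ (Nat.cast_ne_zero.mpr prime_pos.ne')
  rw [this, sharp_zero, zero_mul]

/-- A uniform bound on a closed disc. -/
theorem exists_bound (hk : 1 ≤ k) {r : ℝ} (hr : 0 ≤ r) (hr1 : r < 1) :
    ∃ B, 0 ≤ B ∧ ∀ y : C, ‖y‖ ≤ r → ‖linVec T k y‖ ≤ B := by
  have key : ∀ s : Fin k, ∃ B, 0 ≤ B ∧ ∀ j, tv p k s r j ≤ B := by
    intro s
    have hb := (tendsto_tv (p := p) hk (s : ℕ) hr hr1).eventually (ge_mem_nhds one_pos)
    rw [eventually_cofinite] at hb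
    obtain ⟨B, hB⟩ := (hb.image (tv p k s r)).bddAbove
    refine ⟨max B 1, le_trans zero_le_one (le_max_right _ _), fun j => ?_⟩
    by_cases hj : tv p k s r j ≤ 1
    · exact le_trans hj (le_max_right _ _)
    · exact le_trans (hB ⟨j, hj, rfl⟩) (le_max_left _ _)
  choose B hB0 hB using key
  refine ⟨∑ s, B s, Finset.sum_nonneg fun s _ => hB0 s, fun y hy => ?_⟩
  refine (pi_norm_le_iff_of_nonneg (Finset.sum_nonneg fun s _ => hB0 s)).mpr fun s => ?_
  refine le_trans ?_ (Finset.single_le_sum (fun i _ => hB0 i) (Finset.mem_univ s))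
  refine IsUltrametricDist.norm_tsum_le_of_forall_le_of_nonneg (hB0 s) fun j => ?_
  show ‖term T k s y j‖ ≤ B s
  rw [norm_term T (hy.trans hr1.le)]
  exact le_trans (tv_mono _ (norm_nonneg y) hy j) (hB s j)

/-! ## compatibility with the p-th power and fixed scalars -/

/-- The effect of the p-th power. -/
def shiftVec (k : ℕ) (v : Fin k → PadicComplex p) (t : Fin k) : PadicComplex p :=
  if h : t.1 + 1 < k then v ⟨t.1 + 1, h⟩ else (p : PadicComplex p) * v ⟨0, t.pos⟩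

theorem linVec_pow_p (y : C) : linVec T k (y ^ p) = shiftVec k (linVec T k y) := by
  have hp : (p : PadicComplex p) ≠ 0 := Nat.cast_ne_zero.mpr prime_pos.ne'
  funext t
  show ∑' j : ℤ, _ = _
  simp only [ppow_pow_p]
  unfold shiftVec
  split_ifs with h
  · show _ = ∑' j : ℤ, _
    refine tsum_congr fun j => ?_
    congr 3
    push_cast
    ring
  · show _ = (p : PadicComplex p) * ∑' j : ℤ, _
    rw [← tsum_mul_left, ← (Equiv.addRight (1 : ℤ)).tsum_eq
      (fun j : ℤ => (p : PadicComplex p) * (T.sharp (ppow (p := p) y ((k : ℤ) * j + ((0 : ℕ) : ℤ))) *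
        (p : PadicComplex p) ^ (-j)))]
    refine tsum_congr fun j => ?_
    have ht : ((t : ℕ) : ℤ) + 1 = k := by omega
    simp only [Equiv.coe_addRight, Nat.cast_zero, add_zero, neg_add_rev]
    rw [mul_left_comm, mul_comm (p : PadicComplex p), zpow_add₀ hp, zpow_neg_one,
      show (k : ℤ) * j + ((t : ℕ) : ℤ) + 1 = (k : ℤ) * (j + 1) by
        rw [add_assoc, ht]; ring]
    field_simp

theorem linVec_fixed_mul {ω : C} (hω : ω ^ p ^ k = ω) (hω1 : ‖ω‖ ≤ 1) {y : C} (hy : ‖y‖ ≤ 1)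
    (t : Fin k) : linVec T k (ω * y) t = T.sharp ω ^ p ^ (t : ℕ) * linVec T k y t := by
  show ∑' j : ℤ, _ = _ * ∑' j : ℤ, _
  rw [← tsum_mul_left]
  refine tsum_congr fun j => ?_
  rw [ppow_mul_base, T.sharp_mul _ _ (norm_ppow_le_one hω1 _) (norm_ppow_le_one hy _),
    ppow_fixed hω, sharp_pow T hω1, mul_assoc]

/-! ## additivity -/

variable [CompleteSpace C]

variable (p C) in
/-- Coefficients into C. -/
def jC : ℤ_[p] →+* C := (ZMod.castHom (dvd_refl p) C).comp PadicInt.toZMod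

variable (p) in
/-- Coefficients into C_p. -/
def jP : ℤ_[p] →+* PadicComplex p :=
  (algebraMap ℚ_[p] (PadicComplex p)).comp (algebraMap ℤ_[p] ℚ_[p])

omit [IsUltrametricDist C] [IsAlgClosed C] [CompleteSpace C] in
theorem jC_eq_natCast (c : ℤ_[p]) : jC p C c = ((PadicInt.toZMod c).val : C) := by
  rw [jC, RingHom.comp_apply, ← map_natCast (ZMod.castHom (dvd_refl p) C), ZMod.natCast_zmod_val]

omit [IsAlgClosed C] [CompleteSpace C] in
theorem norm_jC (c : ℤ_[p]) : ‖jC p C c‖ ≤ 1 := by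
  rw [jC_eq_natCast]
  exact IsUltrametricDist.norm_natCast_le_one C _

theorem norm_jP_eq (c : ℤ_[p]) : ‖jP p c‖ = ‖c‖ := by
  rw [jP, RingHom.comp_apply, norm_algebraMap']
  rfl

theorem norm_jP (c : ℤ_[p]) : ‖jP p c‖ ≤ 1 := by rw [norm_jP_eq]; exact PadicInt.norm_le_one c

theorem sharp_coeff (c : ℤ_[p]) : ‖T.sharp (jC p C c) - jP p c‖ ≤ (p : ℝ)⁻¹ := by
  set m := (PadicInt.toZMod c).val
  have hm : c - (m : ℤ_[p]) ∈ IsLocalRing.maximalIdeal ℤ_[p] := by
    rw [← PadicInt.ker_toZMod, RingHom.mem_ker, map_sub, map_natCast, ZMod.natCast_zmod_val,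
      sub_self]
  rw [PadicInt.maximalIdeal_eq_span_p, Ideal.mem_span_singleton] at hm
  obtain ⟨c', hc'⟩ := hm
  have h2 : ‖(m : PadicComplex p) - jP p c‖ ≤ (p : ℝ)⁻¹ := by
    rw [← map_natCast (jP p), ← map_sub, norm_jP_eq, norm_sub_rev, hc', norm_mul, PadicInt.norm_p]
    exact mul_le_of_le_one_right (by positivity) (PadicInt.norm_le_one c')
  rw [jC_eq_natCast]
  calc ‖T.sharp (m : C) - jP p c‖
      = ‖(T.sharp (m : C) - m) + ((m : PadicComplex p) - jP p c)‖ := by congr 1; ring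
    _ ≤ _ := le_trans (IsUltrametricDist.norm_add_le_max _ _) (max_le (sharp_natCast T m) h2)

theorem norm_mul_sub_mul {K : Type} [NormedField K] [IsUltrametricDist K] {a a' b : K} {B : ℝ}
    (h : ‖a - a'‖ ≤ B) (hb : ‖b‖ ≤ 1) : ‖a * b - a' * b‖ ≤ B := by
  rw [← sub_mul, norm_mul]
  exact le_trans (mul_le_of_le_one_right (norm_nonneg _) hb) h

/-- Evaluation is compatible with the sharp map modulo p. -/
theorem sharp_mveval (f : MvPowerSeries (Fin 2) ℤ_[p]) (a : Fin 2 → C) (ha : ∀ i, ‖a i‖ < 1) :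
    ‖T.sharp (mveval (jC p C) f a) - mveval (jP p) f (fun i => T.sharp (a i))‖ ≤ (p : ℝ)⁻¹ := by
  have hb : ∀ i, ‖T.sharp (a i)‖ < 1 := fun i => by rw [T.norm_sharp _ (ha i).le]; exact ha i
  have h1 := Eval.hasSum_mveval (j := jC p C) norm_jC ha f
  have h2 := Eval.hasSum_mveval (j := jP p) norm_jP hb f
  have hε : (0 : ℝ) < (p : ℝ)⁻¹ := inv_pos.mpr (by exact_mod_cast prime_pos)
  obtain ⟨S, hS1, hS2⟩ := ((h1.eventually (Metric.closedBall_mem_nhds _ hε)).and
    (h2.eventually (Metric.closedBall_mem_nhds _ hε))).exists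
  simp only [dist_eq_norm] at hS1 hS2
  set g : (Fin 2 →₀ ℕ) → C :=
    fun m => jC p C (MvPowerSeries.coeff m f) * ∏ i, a i ^ m i with hg
  set g' : (Fin 2 →₀ ℕ) → PadicComplex p :=
    fun m => jP p (MvPowerSeries.coeff m f) * ∏ i, T.sharp (a i) ^ m i with hg'
  have hprod : ∀ m : Fin 2 →₀ ℕ, ‖∏ i, a i ^ m i‖ ≤ 1 := fun m => by
    rw [norm_prod]
    exact Finset.prod_le_one (fun i _ => norm_nonneg _) fun i _ => by
      rw [norm_pow]; exact pow_le_one₀ (norm_nonneg _) (ha i).le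
  have hterm : ∀ m ∈ S, ‖g m‖ ≤ 1 := fun m _ => by
    rw [hg, norm_mul]
    exact mul_le_one₀ (norm_jC _) (norm_nonneg _) (hprod m)
  have hsum : ‖∑ m ∈ S, g m‖ ≤ 1 :=
    IsUltrametricDist.norm_sum_le_of_forall_le_of_nonneg zero_le_one hterm
  have hev : ‖mveval (jC p C) f a‖ ≤ 1 :=
    Eval.norm_mveval_le_of norm_jC f zero_le_one fun m _ =>
      Finset.prod_le_one (fun i _ => pow_nonneg (norm_nonneg _) _)
        fun i _ => pow_le_one₀ (norm_nonneg _) (ha i).le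
  have e1 : ‖T.sharp (mveval (jC p C) f a) - T.sharp (∑ m ∈ S, g m)‖ ≤ (p : ℝ)⁻¹ :=
    sharp_close T hev hsum (by rw [norm_sub_rev]; exact hS1)
  have e2 := sharp_sum T S g hterm
  have e3 : ‖∑ m ∈ S, T.sharp (g m) - ∑ m ∈ S, g' m‖ ≤ (p : ℝ)⁻¹ := by
    rw [← Finset.sum_sub_distrib]
    refine IsUltrametricDist.norm_sum_le_of_forall_le_of_nonneg hε.le fun m _ => ?_
    have hpow : T.sharp (∏ i, a i ^ m i) = ∏ i, T.sharp (a i) ^ m i := by
      rw [Fin.prod_univ_two, Fin.prod_univ_two, T.sharp_mul, sharp_pow T (ha 0).le,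
        sharp_pow T (ha 1).le] <;>
      · rw [norm_pow]; exact pow_le_one₀ (norm_nonneg _) (ha _).le
    rw [hg, hg', T.sharp_mul _ _ (norm_jC _) (hprod m), hpow]
    refine norm_mul_sub_mul (sharp_coeff T _) ?_
    rw [norm_prod]
    exact Finset.prod_le_one (fun i _ => norm_nonneg _) fun i _ => by
      rw [norm_pow]; exact pow_le_one₀ (norm_nonneg _) (hb i).le
  calc ‖T.sharp (mveval (jC p C) f a) - mveval (jP p) f (fun i => T.sharp (a i))‖
      = ‖((T.sharp (mveval (jC p C) f a) - T.sharp (∑ m ∈ S, g m)) +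
          (T.sharp (∑ m ∈ S, g m) - ∑ m ∈ S, T.sharp (g m))) +
          ((∑ m ∈ S, T.sharp (g m) - ∑ m ∈ S, g' m) +
          (∑ m ∈ S, g' m - mveval (jP p) f (fun i => T.sharp (a i))))‖ := by congr 1; ring
    _ ≤ _ := le_trans (IsUltrametricDist.norm_add_le_max _ _) (max_le
        (le_trans (IsUltrametricDist.norm_add_le_max _ _) (max_le e1 e2))
        (le_trans (IsUltrametricDist.norm_add_le_max _ _) (max_le e3 hS2)))

variable {F : FormalGroup ℤ_[p]}

theorem gadd_eq (F : FormalGroup ℤ_[p]) (a b : C) :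
    gadd (hondaIn F C) a b = mveval (jC p C) F.toPowerSeries ![a, b] := by
  simp [gadd, hondaIn, FormalGroup.map, mveval, MvPowerSeries.coeff_map, jC]

theorem norm_gadd_le (F : FormalGroup ℤ_[p]) {a b : C} {r : ℝ} (hr : r ≤ 1) (ha : ‖a‖ ≤ r)
    (hb : ‖b‖ ≤ r) : ‖gadd (hondaIn F C) a b‖ ≤ r := by
  rw [gadd_eq]
  exact Eval.norm_mveval_le_max norm_jC _ F.zero_constantCoeff (le_trans (norm_nonneg a) ha) hr
    fun i => by fin_cases i <;> assumption

end Vale.Agent.P217.I
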