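import Mathlib
import Vale.Agent.P217.I.Lin

/-!
# P217 block I: additivity of the linearisation and the bound from below
-/

noncomputable section

namespace Vale.Agent.P217.I

open scoped Classical Topology
open Filter Vale.Agent.P217

variable {p : ℕ} [Fact p.Prime] {C : Type} [NontriviallyNormedField C] [IsUltrametricDist C]
  [IsAlgClosed C] [CharP C p] [CompleteSpace C] (T : Untilt p C) {k : ℕ}
  {F : FormalGroup ℤ_[p]}

variable (p) in
/-- A partial sum of the logarithm. -/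
def plog (k M : ℕ) (x : PadicComplex p) : PadicComplex p :=
  ∑ i ∈ Finset.range M, x ^ (p ^ k) ^ i / (p : PadicComplex p) ^ i

theorem plog_defect (hk : 1 ≤ k) (hF : IsHondaLift k F) (u v : PadicComplex p) {r : ℝ}
    (hr : r < 1) (hu : ‖u‖ ≤ r) (hv : ‖v‖ ≤ r) (M : ℕ) :
    ‖plog p k M (mveval (jP p) F.toPowerSeries ![u, v]) - plog p k M u - plog p k M v‖ ≤
      (p : ℝ) ^ M * r ^ (p ^ k) ^ M := by
  have hr0 : 0 ≤ r := le_trans (norm_nonneg u) hu
  have hp : (0 : ℝ) < p := by exact_mod_cast prime_pos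
  have hpC : (p : PadicComplex p) ≠ 0 := Nat.cast_ne_zero.mpr prime_pos.ne'
  have ha : ∀ i, ‖![u, v] i‖ ≤ r := fun i => by fin_cases i <;> assumption
  have ha1 : ∀ i, ‖![u, v] i‖ < 1 := fun i => lt_of_le_of_lt (ha i) hr
  have h := Eval.norm_mveval_le_pow (j := jP p) norm_jP (logDefect k F M) (a := ![u, v]) hr0 hr.le ha
    ((p ^ k) ^ M) fun m hm => coeff_logDefect hk hF M m (by
      rw [Finsupp.degree_eq_sum]; exact hm)
  have e : mveval (jP p) (logDefect k F M) ![u, v] = (p : PadicComplex p) ^ M *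
      (plog p k M (mveval (jP p) F.toPowerSeries ![u, v]) - plog p k M u - plog p k M v) := by
    rw [plog, plog, plog, ← Finset.sum_sub_distrib, ← Finset.sum_sub_distrib, Finset.mul_sum,
      logDefect, Eval.mveval_sum norm_jP ha1]
    refine Finset.sum_congr rfl fun i hi => ?_
    rw [Eval.mveval_mul norm_jP ha1, Eval.mveval_C, Eval.mveval_sub norm_jP ha1,
      Eval.mveval_sub norm_jP ha1, Eval.mveval_pow norm_jP ha1, Eval.mveval_pow norm_jP ha1,
      Eval.mveval_pow norm_jP ha1, Eval.mveval_X, Eval.mveval_X, map_pow, map_natCast,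
      pow_sub₀ _ hpC (Finset.mem_range.mp hi).le]
    simp only [Matrix.cons_val_zero, Matrix.cons_val_one, Matrix.cons_val_fin_one]
    field_simp
  rw [e, norm_mul, norm_pow, norm_p] at h
  rw [inv_pow] at h
  exact (inv_mul_le_iff₀ (pow_pos hp M)).mp h

/-- Powers of points congruent modulo p. -/
theorem pow_close {u v : PadicComplex p} (hu : ‖u‖ ≤ 1) (hv : ‖v‖ ≤ 1)
    (h : ‖u - v‖ ≤ (p : ℝ)⁻¹) (e : ℕ) :
    ‖u ^ p ^ e - v ^ p ^ e‖ ≤ (p : ℝ)⁻¹ ^ (e + 1) := by
  have hpC : (p : PadicComplex p) ≠ 0 := Nat.cast_ne_zero.mpr prime_pos.ne'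
  have hq : ‖(u - v) / (p : PadicComplex p)‖ ≤ 1 := by
    rw [norm_div, norm_p]
    exact div_le_one_of_le₀ h (by positivity)
  have hdvd : ((p : ℕ) : unitBall (PadicComplex p)) ∣
      (⟨u, hu⟩ - ⟨v, hv⟩ : unitBall (PadicComplex p)) :=
    ⟨⟨_, hq⟩, Subtype.ext (by push_cast; field_simp)⟩
  obtain ⟨c, hc⟩ := dvd_sub_pow_of_dvd_sub hdvd e
  have := congrArg Subtype.val hc
  push_cast at this
  rw [this, norm_mul, norm_pow, norm_p]
  exact mul_le_of_le_one_right (by positivity) c.2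

theorem plog_close {u v : PadicComplex p} (hk : 1 ≤ k) (hu : ‖u‖ ≤ 1) (hv : ‖v‖ ≤ 1)
    (h : ‖u - v‖ ≤ (p : ℝ)⁻¹) (M : ℕ) : ‖plog p k M u - plog p k M v‖ ≤ (p : ℝ)⁻¹ := by
  have hp : (0 : ℝ) < p := by exact_mod_cast prime_pos
  rw [plog, plog, ← Finset.sum_sub_distrib]
  refine IsUltrametricDist.norm_sum_le_of_forall_le_of_nonneg (by positivity) fun i _ => ?_
  rw [← sub_div, norm_div, norm_pow, norm_p, div_le_iff₀ (by positivity), ← pow_succ', ← pow_mul]
  exact le_trans (pow_close hu hv h _) (pow_le_pow_of_le_one (by positivity) inv_p_lt_one.le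
    (Nat.succ_le_succ (Nat.le_mul_of_pos_left i hk)))

theorem pow_gadd (G : FormalGroup ℤ_[p]) {a b : C} (ha : ‖a‖ < 1) (hb : ‖b‖ < 1) (e : ℕ) :
    gadd (hondaIn G C) a b ^ p ^ e = gadd (hondaIn G C) (a ^ p ^ e) (b ^ p ^ e) := by
  have hab : ∀ i, ‖![a, b] i‖ < 1 := fun i => by fin_cases i <;> assumption
  have hab' : ∀ i, ‖![a ^ p ^ e, b ^ p ^ e] i‖ < 1 := fun i => by
    fin_cases i <;> simp [norm_pow]
    · exact pow_lt_one₀ (norm_nonneg _) ha (pow_ne_zero e prime_pos.ne')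
    · exact pow_lt_one₀ (norm_nonneg _) hb (pow_ne_zero e prime_pos.ne')
  have h1 := (Eval.hasSum_mveval (j := jC p C) norm_jC hab G.toPowerSeries).map
    (iterateFrobenius C p e)
    (show Continuous (fun x : C => iterateFrobenius C p e x) by
      simp only [iterateFrobenius_def]; exact continuous_pow _)
  have h2 := Eval.hasSum_mveval (j := jC p C) norm_jC hab' G.toPowerSeries
  rw [gadd_eq, gadd_eq, ← iterateFrobenius_def]
  refine h1.unique ?_
  convert h2 using 1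
  funext m
  simp only [Function.comp_apply, iterateFrobenius_def, mul_pow, Fin.prod_univ_two,
    Matrix.cons_val_zero, Matrix.cons_val_one, Matrix.cons_val_fin_one, ← pow_mul, mul_comm (p ^ e)]
  rw [← map_pow, jC, RingHom.comp_apply, RingHom.comp_apply, map_pow, ZMod.pow_card_pow]

theorem ppow_gadd (G : FormalGroup ℤ_[p]) {a b : C} (ha : ‖a‖ < 1) (hb : ‖b‖ < 1) (m : ℤ) :
    ppow (p := p) (gadd (hondaIn G C) a b) m =
      gadd (hondaIn G C) (ppow (p := p) a m) (ppow (p := p) b m) := by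
  have hlt : ∀ x : C, ‖x‖ < 1 → ‖ppow (p := p) x m‖ < 1 := fun x hx => by
    rw [norm_ppow]
    exact Real.rpow_lt_one (norm_nonneg _) hx (zpow_pos (by exact_mod_cast prime_pos) m)
  obtain ⟨e, b', hab⟩ := exists_nat_shift m
  refine (ppow_ext e b' hab ?_).symm
  rw [pow_gadd G (hlt a ha) (hlt b hb), pow_gadd G ha hb, ← ppow_add_nat, ← ppow_add_nat, hab,
    ppow_ofNat, ppow_ofNat]

theorem term_sum_eq (s : ℕ) {y : C} (hy : ‖y‖ ≤ 1) (l : ℕ) :
    ∑ j ∈ Finset.Ico (-(l : ℤ)) l, term T k s y j = (p : PadicComplex p) ^ l *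
      plog p k (2 * l) (T.sharp (ppow (p := p) y ((s : ℤ) - k * l))) := by
  have hpC : (p : PadicComplex p) ≠ 0 := Nat.cast_ne_zero.mpr prime_pos.ne'
  have e : Finset.Ico (-(l : ℤ)) l = (Finset.range (2 * l)).image fun i : ℕ => (i : ℤ) - l := by
    ext j
    simp only [Finset.mem_Ico, Finset.mem_image, Finset.mem_range]
    constructor
    · intro hj; exact ⟨(j + l).toNat, by omega, by omega⟩
    · rintro ⟨i, hi, rfl⟩; omega
  rw [e, Finset.sum_image fun a _ b _ h => by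
      have : ((a : ℤ)) - l = (b : ℤ) - l := h
      omega, plog, Finset.mul_sum]
  refine Finset.sum_congr rfl fun i _ => ?_
  rw [term, show (k : ℤ) * ((i : ℤ) - l) + (s : ℤ) = ((s : ℤ) - k * l) + ((k * i : ℕ) : ℤ) by
    push_cast; ring, ppow_add_nat, sharp_pow T (norm_ppow_le_one hy _), neg_sub,
    zpow_sub₀ hpC, zpow_natCast, zpow_natCast, ← pow_mul p k i]
  ring

theorem tendsto_Ico_finset : Tendsto (fun l : ℕ => Finset.Ico (-(l : ℤ)) l) atTop atTop := by
  refine tendsto_atTop_finset_of_monotone (fun a b hab => Finset.Ico_subset_Ico (by omega) (by omega))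
    fun j => ⟨j.natAbs + 1, ?_⟩
  simp only [Finset.mem_Ico]
  omega

/-- The linearisation is additive. -/
theorem linVec_gadd (hk : 1 ≤ k) (hF : IsHondaLift k F) {a b : C} (ha : ‖a‖ < 1) (hb : ‖b‖ < 1) :
    linVec T k (gadd (hondaIn F C) a b) = linVec T k a + linVec T k b := by
  have hp : (0 : ℝ) < p := by exact_mod_cast prime_pos
  set ρ := max ‖a‖ ‖b‖ with hρdef
  have hρ : ρ < 1 := max_lt ha hb
  have hρ0 : 0 ≤ ρ := le_trans (norm_nonneg a) (le_max_left _ _)
  have hc : ‖gadd (hondaIn F C) a b‖ < 1 :=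
    lt_of_le_of_lt (norm_gadd_le F hρ.le (le_max_left _ _) (le_max_right _ _)) hρ
  funext s
  rw [Pi.add_apply, ← sub_eq_zero]
  have hlim := ((hasSum_linVec T hk hc s).comp tendsto_Ico_finset).sub
    (((hasSum_linVec T hk ha s).comp tendsto_Ico_finset).add
      ((hasSum_linVec T hk hb s).comp tendsto_Ico_finset))
  refine tendsto_nhds_unique hlim ?_
  rw [tendsto_zero_iff_norm_tendsto_zero]
  have hd1 : Tendsto (fun l : ℕ => (p : ℝ)⁻¹ ^ (l + 1)) atTop (𝓝 0) :=
    (tendsto_pow_atTop_nhds_zero_of_lt_one (by positivity) inv_p_lt_one).comp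
      (tendsto_add_atTop_nat 1)
  have hd2 := tendsto_tv_nat (p := p) hk (s : ℕ) hρ0 hρ
  have hd : Tendsto (fun l : ℕ => max ((p : ℝ)⁻¹ ^ (l + 1)) (tv p k s ρ (l : ℤ))) atTop (𝓝 0) := by
    simpa using hd1.max hd2
  refine squeeze_zero (fun l => norm_nonneg _) (fun l => ?_) hd
  show ‖∑ j ∈ Finset.Ico (-(l : ℤ)) l, term T k s (gadd (hondaIn F C) a b) j -
    (∑ j ∈ Finset.Ico (-(l : ℤ)) l, term T k s a j +
      ∑ j ∈ Finset.Ico (-(l : ℤ)) l, term T k s b j)‖ ≤ _
  rw [term_sum_eq T _ hc.le, term_sum_eq T _ ha.le, term_sum_eq T _ hb.le, ppow_gadd F ha hb]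
  set m : ℤ := ((s : ℕ) : ℤ) - k * l with hm
  set x := ppow (p := p) a m
  set y := ppow (p := p) b m
  set r := ρ ^ ((p : ℝ) ^ m) with hr
  have hlt : ∀ z : C, ‖z‖ ≤ ρ → ‖ppow (p := p) z m‖ ≤ r := fun z hz => by
    rw [norm_ppow, hr]
    exact Real.rpow_le_rpow (norm_nonneg _) hz (zpow_nonneg hp.le _)
  have hr1 : r < 1 := Real.rpow_lt_one hρ0 hρ (zpow_pos hp m)
  have hr0 : 0 ≤ r := Real.rpow_nonneg hρ0 _
  have hx : ‖x‖ ≤ r := hlt a (le_max_left _ _)
  have hy : ‖y‖ ≤ r := hlt b (le_max_right _ _)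
  have hxy : ‖gadd (hondaIn F C) x y‖ ≤ r := norm_gadd_le F hr1.le hx hy
  set u := T.sharp x
  set v := T.sharp y
  set w := T.sharp (gadd (hondaIn F C) x y)
  set w' := mveval (jP p) F.toPowerSeries ![u, v]
  have hu : ‖u‖ ≤ r := by rw [T.norm_sharp _ (hx.trans hr1.le)]; exact hx
  have hv : ‖v‖ ≤ r := by rw [T.norm_sharp _ (hy.trans hr1.le)]; exact hy
  have hw : ‖w‖ ≤ 1 := by rw [T.norm_sharp _ (hxy.trans hr1.le)]; exact hxy.trans hr1.le
  have hw' : ‖w'‖ ≤ 1 := le_trans (Eval.norm_mveval_le_max norm_jP _ F.zero_constantCoeff hr0 hr1.le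
    fun i => by fin_cases i <;> assumption) hr1.le
  have hww : ‖w - w'‖ ≤ (p : ℝ)⁻¹ := by
    have := sharp_mveval T F.toPowerSeries ![x, y] (fun i => by
      fin_cases i <;> [exact lt_of_le_of_lt hx hr1; exact lt_of_le_of_lt hy hr1])
    rw [← gadd_eq, show (fun i => T.sharp (![x, y] i)) = ![u, v] by
      funext i; fin_cases i <;> rfl] at this
    exact this
  rw [show (p : PadicComplex p) ^ l * plog p k (2 * l) w -
      ((p : PadicComplex p) ^ l * plog p k (2 * l) u + (p : PadicComplex p) ^ l * plog p k (2 * l) v)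
      = (p : PadicComplex p) ^ l * ((plog p k (2 * l) w - plog p k (2 * l) w') +
        (plog p k (2 * l) w' - plog p k (2 * l) u - plog p k (2 * l) v)) by ring,
    norm_mul, norm_pow, norm_p]
  refine le_trans (mul_le_mul_of_nonneg_left (IsUltrametricDist.norm_add_le_max _ _) (by positivity)) ?_
  rw [mul_max_of_nonneg _ _ (by positivity)]
  refine max_le_max ?_ ?_
  · rw [pow_succ]
    exact mul_le_mul_of_nonneg_left (plog_close hk hw hw' hww _) (by positivity)
  · refine le_trans (mul_le_mul_of_nonneg_left (plog_defect hk hF u v hr1 hu hv (2 * l))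
      (by positivity)) (le_of_eq ?_)
    have hexp : (p : ℝ) ^ m * (((p ^ k) ^ (2 * l) : ℕ) : ℝ) = (p : ℝ) ^ ((k : ℤ) * l + (s : ℕ)) := by
      push_cast
      rw [← pow_mul, ← zpow_natCast (p : ℝ) (k * (2 * l)), ← zpow_add₀ hp.ne', hm]
      congr 1
      push_cast
      ring
    rw [tv, hr, ← Real.rpow_natCast (ρ ^ ((p : ℝ) ^ m)), ← Real.rpow_mul hρ0, hexp,
      zpow_natCast, inv_pow, two_mul, pow_add]
    field_simp

theorem norm_pointSum_le (G : FormalGroup ℤ_[p]) {r : ℝ} (hr0 : 0 ≤ r) (hr : r ≤ 1) :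
    ∀ L : List C, (∀ z ∈ L, ‖z‖ ≤ r) → ‖pointSum (hondaIn G C) L‖ ≤ r
  | [], _ => by simpa [pointSum] using hr0
  | z :: L, hL => norm_gadd_le G hr (hL z (by simp))
      (norm_pointSum_le G hr0 hr L fun w hw => hL w (by simp [hw]))

theorem norm_pointSum_lt (G : FormalGroup ℤ_[p]) :
    ∀ L : List C, (∀ z ∈ L, ‖z‖ < 1) → ‖pointSum (hondaIn G C) L‖ < 1
  | [], _ => by simp [pointSum]
  | z :: L, hL => lt_of_le_of_lt (norm_gadd_le G
      (max_lt (hL z (by simp)) (norm_pointSum_lt G L fun w hw => hL w (by simp [hw]))).le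
      (le_max_left _ _) (le_max_right _ _))
      (max_lt (hL z (by simp)) (norm_pointSum_lt G L fun w hw => hL w (by simp [hw])))

theorem linVec_pointSum (hk : 1 ≤ k) (hF : IsHondaLift k F) :
    ∀ L : List C, (∀ z ∈ L, ‖z‖ < 1) →
      linVec T k (pointSum (hondaIn F C) L) = (L.map (linVec T k)).sum
  | [], _ => by simp [pointSum, linVec_zero]
  | z :: L, hL => by
    rw [pointSum, linVec_gadd T hk hF (hL z (by simp))
      (norm_pointSum_lt F L fun w hw => hL w (by simp [hw])),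
      linVec_pointSum hk hF L fun w hw => hL w (by simp [hw])]
    simp

theorem norm_nPoint_lt (G : FormalGroup ℤ_[p]) (N : ℕ) {z : C} (hz : ‖z‖ < 1) :
    ‖nPoint (hondaIn G C) N z‖ < 1 :=
  norm_pointSum_lt G _ fun w hw => by rw [(List.mem_replicate.mp hw).2]; exact hz

theorem linVec_nPoint (hk : 1 ≤ k) (hF : IsHondaLift k F) (N : ℕ) {z : C} (hz : ‖z‖ < 1) :
    linVec T k (nPoint (hondaIn F C) N z) = N • linVec T k z := by
  rw [nPoint, linVec_pointSum T hk hF _ fun w hw => by rw [(List.mem_replicate.mp hw).2]; exact hz]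
  simp

/-! ## bound from below -/

variable (p k) in
/-- Two largest terms can tie only in this case. -/
def Tie (s : ℕ) (ρ : ℝ) : Prop :=
  ∃ j : ℤ, -Real.logb p ρ * (p : ℝ) ^ ((k : ℤ) * j + s) * ((p : ℝ) ^ k - 1) = 1

omit [IsUltrametricDist C] [CompleteSpace C] in
theorem not_tie_both (hk : 2 ≤ k) (ρ : ℝ) : ¬ (Tie p k 0 ρ ∧ Tie p k 1 ρ) := by
  rintro ⟨⟨i, hi⟩, j, hj⟩
  have hp : (1 : ℝ) < p := by exact_mod_cast (Fact.out : p.Prime).one_lt
  have hne : -Real.logb p ρ * ((p : ℝ) ^ k - 1) ≠ 0 := fun h0 => by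
    rw [mul_right_comm, h0, zero_mul] at hi
    exact one_ne_zero hi.symm
  have he : (p : ℝ) ^ ((k : ℤ) * i + ((0 : ℕ) : ℤ)) = (p : ℝ) ^ ((k : ℤ) * j + ((1 : ℕ) : ℤ)) := by
    refine mul_left_cancel₀ hne ?_
    rw [mul_right_comm, hi, mul_right_comm, hj]
  have := zpow_right_injective₀ (lt_trans one_pos hp) hp.ne' he
  push_cast at this
  have hdvd : (k : ℤ) ∣ 1 := ⟨i - j, by linarith⟩
  have := Int.le_of_dvd one_pos hdvd
  omega

theorem not_tie_special (hk : 1 ≤ k) {N : ℕ} (hN : 1 ≤ N) :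
    ¬ Tie p k 0 ((p : ℝ)⁻¹ ^ ((p + 1) * N)) := by
  rintro ⟨j, hj⟩
  have hp2 := (Fact.out : p.Prime).two_le
  have hp1 : (1 : ℝ) < p := by exact_mod_cast (Fact.out : p.Prime).one_lt
  have hlog : -Real.logb p ((p : ℝ)⁻¹ ^ ((p + 1) * N)) = (((p + 1) * N : ℕ) : ℝ) := by
    rw [inv_pow, Real.logb_inv, neg_neg, Real.logb_pow, Real.logb_self_eq_one hp1, mul_one]
  have hQ : 2 ≤ p ^ k := le_trans hp2 (Nat.le_self_pow (by omega) p)
  have hX : ((p : ℝ) ^ k - 1) = ((p ^ k - 1 : ℕ) : ℝ) := by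
    rw [Nat.cast_sub (by omega)]; push_cast; rfl
  rw [hlog, hX] at hj
  obtain ⟨e, he⟩ := Int.eq_nat_or_neg ((k : ℤ) * j + ((0 : ℕ) : ℤ))
  rcases he with he | he <;> rw [he] at hj
  · rw [zpow_natCast, ← Nat.cast_pow, ← Nat.cast_mul, ← Nat.cast_mul, Nat.cast_eq_one] at hj
    have := Nat.eq_one_of_mul_eq_one_right (Nat.eq_one_of_mul_eq_one_right hj)
    have := Nat.eq_one_of_mul_eq_one_right this
    omega
  · rw [zpow_neg, zpow_natCast, ← Nat.cast_pow] at hj
    field_simp at hj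
    rw [← Nat.cast_mul, Nat.cast_inj] at hj
    have hdvd : p + 1 ∣ p ^ e := ⟨N * (p ^ k - 1), by rw [← hj]; ring⟩
    have hcop : Nat.Coprime (p + 1) (p ^ e) := by
      refine Nat.Coprime.pow_right _ ?_
      rw [Nat.coprime_self_add_left]
      exact Nat.coprime_one_left p
    have := Nat.Coprime.eq_one_of_dvd hcop hdvd
    omega

omit [IsUltrametricDist C] [IsAlgClosed C] [CharP C p] [CompleteSpace C] in
theorem tv_eq_rpow {ρ : ℝ} (hρ : 0 < ρ) (s : ℕ) (j : ℤ) :
    tv p k s ρ j = (p : ℝ) ^ ((j : ℝ) - -Real.logb p ρ * (p : ℝ) ^ ((k : ℤ) * j + s)) := by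
  have hp : (0 : ℝ) < p := by exact_mod_cast prime_pos
  have hp1 : (p : ℝ) ≠ 1 := by exact_mod_cast (Fact.out : p.Prime).one_lt.ne'
  rw [tv, sub_eq_add_neg, Real.rpow_add hp, Real.rpow_intCast, neg_mul, neg_neg,
    Real.rpow_mul hp.le, Real.rpow_logb hp hp1 hρ]
  ring

/-- Without a tie one term dominates. -/
theorem le_norm_linVec (hk : 1 ≤ k) {y : C} (hy : ‖y‖ < 1) (hy0 : y ≠ 0) (s : Fin k)
    (ht : ¬ Tie p k s ‖y‖) : ‖y‖ ^ p ^ (s : ℕ) ≤ ‖linVec T k y s‖ := by
  have hp : (0 : ℝ) < p := by exact_mod_cast prime_pos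
  have hp1 : (1 : ℝ) < p := by exact_mod_cast (Fact.out : p.Prime).one_lt
  have hρ : 0 < ‖y‖ := norm_pos_iff.mpr hy0
  set τ := -Real.logb p ‖y‖ with hτ
  have hτ0 : 0 < τ := neg_pos.mpr (Real.logb_neg hp1 hρ hy)
  set g : ℤ → ℝ := fun j => (j : ℝ) - τ * (p : ℝ) ^ ((k : ℤ) * j + (s : ℕ)) with hg
  set t := tv p k s ‖y‖ with htdef
  have ht' : ∀ j, t j = (p : ℝ) ^ g j := fun j => tv_eq_rpow hρ _ j
  have hX : 0 < (p : ℝ) ^ k - 1 := sub_pos.mpr (one_lt_pow₀ hp1 (by omega))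
  set δ : ℤ → ℝ := fun j => 1 - τ * (p : ℝ) ^ ((k : ℤ) * j + (s : ℕ)) * ((p : ℝ) ^ k - 1) with hδdef
  have hstep : ∀ j, g (j + 1) = g j + δ j := fun j => by
    simp only [hg, hδdef]
    rw [show (k : ℤ) * (j + 1) + (s : ℕ) = ((k : ℤ) * j + (s : ℕ)) + (k : ℕ) by push_cast; ring,
      zpow_add₀ hp.ne', zpow_natCast]
    push_cast
    ring
  have hanti : ∀ i j, i < j → δ j < δ i := fun i j hij => by
    simp only [hδdef]
    have : (p : ℝ) ^ ((k : ℤ) * i + (s : ℕ)) < (p : ℝ) ^ ((k : ℤ) * j + (s : ℕ)) :=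
      zpow_lt_zpow_right₀ hp1 (by nlinarith [(by exact_mod_cast hk : (1 : ℤ) ≤ k)])
    have := mul_lt_mul_of_pos_right (mul_lt_mul_of_pos_left this hτ0) hX
    linarith
  have hne : ∀ j, δ j ≠ 0 := fun j h0 => ht ⟨j, by simp only [hδdef] at h0; linarith⟩
  have hzero := tendsto_tv (p := p) hk (s : ℕ) hρ.le hy
  -- the maximum
  have hfin : {j | t 0 ≤ t j}.Finite := by
    have := hzero.eventually (gt_mem_nhds (show (0 : ℝ) < t 0 by rw [ht']; positivity))
    rw [eventually_cofinite] at this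
    simpa only [not_lt] using this
  obtain ⟨j₀, hj₀, hmax⟩ := hfin.toFinset.exists_max_image t ⟨0, by simp⟩
  rw [Set.Finite.mem_toFinset, Set.mem_setOf_eq] at hj₀
  have hmax' : ∀ j, g j ≤ g j₀ := fun j => by
    rw [← Real.rpow_le_rpow_left_iff hp1, ← ht', ← ht']
    by_cases hj : t 0 ≤ t j
    · exact hmax j (hfin.mem_toFinset.mpr hj)
    · exact le_trans (le_of_not_ge hj) hj₀
  have hneg : δ j₀ < 0 := lt_of_le_of_ne (by linarith [hmax' (j₀ + 1), hstep j₀]) (hne j₀)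
  have hpos : 0 < δ (j₀ - 1) := by
    refine lt_of_le_of_ne ?_ (hne _).symm
    have := hstep (j₀ - 1)
    rw [sub_add_cancel] at this
    linarith [hmax' (j₀ - 1)]
  have hup : ∀ n : ℕ, g (j₀ + 1 + n) < g j₀ := by
    intro n
    induction n with
    | zero => simp [hstep, hneg]
    | succ n ih =>
      have := hanti j₀ (j₀ + 1 + n) (by omega)
      rw [show j₀ + 1 + ((n + 1 : ℕ) : ℤ) = (j₀ + 1 + n) + 1 by push_cast; ring, hstep]
      linarith
  have hdown : ∀ n : ℕ, g (j₀ - 1 - n) < g j₀ := by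
    intro n
    induction n with
    | zero =>
      have := hstep (j₀ - 1)
      rw [sub_add_cancel] at this
      simp only [Nat.cast_zero, sub_zero]
      linarith
    | succ n ih =>
      have hlt : j₀ - 1 - ((n + 1 : ℕ) : ℤ) < j₀ - 1 := by omega
      have := hanti _ _ hlt
      have h2 := hstep (j₀ - 1 - ((n + 1 : ℕ) : ℤ))
      rw [show j₀ - 1 - ((n + 1 : ℕ) : ℤ) + 1 = j₀ - 1 - n by push_cast; ring] at h2
      linarith
  have huniq : ∀ j, j ≠ j₀ → t j < t j₀ := fun j hj => by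
    rw [ht', ht', Real.rpow_lt_rpow_left_iff hp1]
    rcases lt_or_gt_of_ne hj with h | h
    · have := hdown (j₀ - 1 - j).toNat
      rwa [show j₀ - 1 - ((j₀ - 1 - j).toNat : ℤ) = j by omega] at this
    · have := hup (j - j₀ - 1).toNat
      rwa [show j₀ + 1 + ((j - j₀ - 1).toNat : ℤ) = j by omega] at this
  -- the rest is smaller
  set rest : ℤ → ℝ := fun j => if j = j₀ then 0 else t j with hrest
  have hrest0 : ∀ j, 0 ≤ rest j := fun j => by
    simp only [hrest]; split_ifs <;> [exact le_rfl; exact tv_nonneg _ hρ.le j]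
  have hbound : ∃ B, 0 ≤ B ∧ B < t j₀ ∧ ∀ j, rest j ≤ B := by
    have hpos0 : 0 < t j₀ := by rw [ht']; positivity
    have hfin' := hzero.eventually (gt_mem_nhds (half_pos hpos0))
    rw [eventually_cofinite] at hfin'
    let S := insert j₀ hfin'.toFinset
    obtain ⟨j1, -, hj1⟩ := S.exists_max_image rest ⟨j₀, Finset.mem_insert_self _ _⟩
    refine ⟨max (t j₀ / 2) (rest j1), le_trans (half_pos hpos0).le (le_max_left _ _),
      max_lt (half_lt_self hpos0) ?_, fun j => ?_⟩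
    · simp only [hrest]; split_ifs with h <;> [exact hpos0; exact huniq _ h]
    · by_cases hj : j ∈ S
      · exact le_trans (hj1 j hj) (le_max_right _ _)
      · simp only [S, Finset.mem_insert, Set.Finite.mem_toFinset, Set.mem_setOf_eq, not_or, not_not] at hj
        simp only [hrest, if_neg hj.1]
        exact le_trans hj.2.le (le_max_left _ _)
  obtain ⟨B, hB0, hBlt, hB⟩ := hbound
  have hsum := summable_term T hk hy (s : ℕ)
  have hval : linVec T k y s = term T k s y j₀ + ∑' j, if j = j₀ then 0 else term T k s y j :=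
    hsum.tsum_eq_add_tsum_ite j₀
  have hsmall : ‖∑' j, if j = j₀ then 0 else term T k s y j‖ ≤ B := by
    refine IsUltrametricDist.norm_tsum_le_of_forall_le_of_nonneg hB0 fun j => ?_
    have := hB j
    simp only [hrest] at this
    split_ifs at this ⊢
    · simpa using hB0
    · rwa [norm_term T hy.le]
  have hnorm : ‖linVec T k y s‖ = t j₀ := by
    have hne' : ‖term T k s y j₀‖ ≠ ‖∑' j, if j = j₀ then 0 else term T k s y j‖ := by
      rw [norm_term T hy.le]
      exact ne_of_gt (lt_of_le_of_lt hsmall hBlt)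
    rw [hval, IsUltrametricDist.norm_add_eq_max_of_norm_ne_norm hne', norm_term T hy.le,
      max_eq_left (le_trans hsmall hBlt.le)]
  rw [hnorm]
  refine le_trans (le_of_eq ?_) hj₀
  simp only [htdef, tv, mul_zero, zero_add, zpow_natCast, zpow_zero, mul_one, ← Nat.cast_pow,
    Real.rpow_natCast]

theorem pow_le_norm_linVec (hk : 2 ≤ k) {y : C} (hy : ‖y‖ < 1) :
    ‖y‖ ^ p ≤ ‖linVec T k y‖ := by
  by_cases hy0 : y = 0
  · subst hy0; rw [norm_zero, zero_pow prime_pos.ne']; exact norm_nonneg _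
  by_cases ht : Tie p k 0 ‖y‖
  · have ht1 : ¬ Tie p k 1 ‖y‖ := fun h => not_tie_both hk _ ⟨ht, h⟩
    have := le_norm_linVec T (by omega) hy hy0 ⟨1, by omega⟩ ht1
    rw [pow_one] at this
    exact le_trans this (norm_le_pi_norm _ _)
  · have := le_norm_linVec T (by omega) hy hy0 ⟨0, by omega⟩ ht
    rw [pow_zero, pow_one] at this
    exact le_trans (le_trans (pow_le_of_le_one (norm_nonneg _) hy.le prime_pos.ne') this)
      (norm_le_pi_norm _ _)

theorem linVec_ne_zero_special (hk : 1 ≤ k) {y : C} {N : ℕ} (hN : 1 ≤ N)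
    (hy : ‖y‖ = (p : ℝ)⁻¹ ^ ((p + 1) * N)) : linVec T k y ≠ 0 := by
  have hpos : 0 < ‖y‖ := by
    rw [hy]; exact pow_pos (inv_pos.mpr (by exact_mod_cast prime_pos)) _
  have hlt : ‖y‖ < 1 := by
    rw [hy]
    exact pow_lt_one₀ (by positivity) inv_p_lt_one (Nat.mul_pos (Nat.succ_pos p) hN).ne'
  intro h0
  have := le_norm_linVec T hk hlt (norm_pos_iff.mp hpos) ⟨0, hk⟩ (hy ▸ not_tie_special hk hN)
  rw [h0, Pi.zero_apply, norm_zero, pow_zero, pow_one] at this
  linarith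

end Vale.Agent.P217.I
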