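import Mathlib
import Vale.Agent.P217.I.Add

/-!
# P217 block I: fixed scalars and the operators they induce on the linearisation
-/

noncomputable section

namespace Vale.Agent.P217.I

open scoped Classical
open Vale.Agent.P217

variable {p : ℕ} [Fact p.Prime] {C : Type} [NontriviallyNormedField C] [IsUltrametricDist C]
  [IsAlgClosed C] [CharP C p] (T : Untilt p C) {k : ℕ}

omit [IsUltrametricDist C] [IsAlgClosed C] [CharP C p] in
theorem norm_fixed (hk : 1 ≤ k) {c : C} (hc : c ^ p ^ k = c) (h0 : c ≠ 0) : ‖c‖ = 1 := by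
  have hQ : 2 ≤ p ^ k := le_trans (Fact.out : p.Prime).two_le (Nat.le_self_pow (by omega) p)
  have h1 : ‖c‖ ^ (p ^ k - 1) = 1 := by
    refine mul_right_cancel₀ (norm_ne_zero_iff.mpr h0) ?_
    rw [one_mul, ← pow_succ, show p ^ k - 1 + 1 = p ^ k by omega, ← norm_pow, hc]
  exact (pow_eq_one_iff_of_nonneg (norm_nonneg c) (by omega)).mp h1

omit [IsUltrametricDist C] [IsAlgClosed C] [CharP C p] in
theorem norm_fixed_le (hk : 1 ≤ k) {c : C} (hc : c ^ p ^ k = c) : ‖c‖ ≤ 1 := by
  by_cases h0 : c = 0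
  · simp [h0]
  · exact (norm_fixed hk hc h0).le

omit [IsUltrametricDist C] [IsAlgClosed C] in
theorem fixed_iterate {F : Type} [Monoid F] {ω : F} (hω : ω ^ p ^ k = ω) (r : ℕ) :
    (ω ^ r) ^ p ^ k = ω ^ r := by rw [← pow_mul, mul_comm, pow_mul, hω]

omit [IsUltrametricDist C] in
/-- A generator of the fixed scalars. -/
theorem exists_generator (hk : 1 ≤ k) :
    ∃ ω : C, ω ^ p ^ k = ω ∧ Function.Injective fun t : Fin k => ω ^ p ^ (t : ℕ) := by
  have hp2 := (Fact.out : p.Prime).two_le
  have hQ : 2 ≤ p ^ k := le_trans hp2 (Nat.le_self_pow (by omega) p)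
  have hne : ((p ^ k - 1 : ℕ) : C) ≠ 0 := by
    rw [Nat.cast_sub (by omega), Nat.cast_pow, CharP.cast_eq_zero, zero_pow (by omega)]
    simp
  have : NeZero ((p ^ k - 1 : ℕ) : C) := ⟨hne⟩
  obtain ⟨ω, hω⟩ := IsAlgClosed.exists_root (Polynomial.cyclotomic (p ^ k - 1) C)
    (ne_of_gt (Polynomial.degree_cyclotomic_pos _ C (by omega)))
  rw [Polynomial.isRoot_cyclotomic_iff] at hω
  refine ⟨ω, ?_, ?_⟩
  · rw [show p ^ k = (p ^ k - 1) + 1 by omega, pow_succ, hω.pow_eq_one, one_mul]
  · intro a b e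
    obtain hk1 | hk1 := eq_or_lt_of_le hk
    · exact Fin.ext (by omega)
    · have hlt : ∀ t : Fin k, p ^ (t : ℕ) < p ^ k - 1 := fun t => by
        have h1 : p ^ (t : ℕ) ≤ p ^ (k - 1) := Nat.pow_le_pow_right prime_pos (by omega)
        have h2 : p ^ k = p ^ (k - 1) * p := by rw [← pow_succ, Nat.sub_add_cancel hk]
        have h3 : 2 ≤ p ^ (k - 1) := le_trans hp2 (Nat.le_self_pow (by omega) p)
        have h4 : p ^ (k - 1) * 2 ≤ p ^ (k - 1) * p := Nat.mul_le_mul_left _ hp2
        omega
      exact Fin.ext (Nat.pow_right_injective hp2 (hω.pow_inj (hlt a) (hlt b) e))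

variable {ω : C}

omit [IsUltrametricDist C] [IsAlgClosed C] in
theorem sum_digits_injective (hω : ω ^ p ^ k = ω)
    (hinj : Function.Injective fun t : Fin k => ω ^ p ^ (t : ℕ)) :
    Function.Injective fun d : Fin k → Fin p => ∑ r : Fin k, ((d r : ℕ) : C) * ω ^ (r : ℕ) := by
  intro d d' e
  have hz : (fun r => ((d r : ℕ) : C) - ((d' r : ℕ) : C)) = 0 := by
    refine Matrix.eq_zero_of_forall_index_sum_mul_pow_eq_zero hinj fun t => ?_
    have := congrArg (iterateFrobenius C p (t : ℕ)) e
    simp only [map_sum, map_mul, map_pow, map_natCast, iterateFrobenius_def] at this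
    simp only [sub_mul, Finset.sum_sub_distrib]
    exact sub_eq_zero.mpr this
  funext r
  have := congrFun hz r
  rw [Pi.zero_apply, sub_eq_zero, CharP.natCast_eq_natCast C p] at this
  exact Fin.ext (Nat.ModEq.eq_of_lt_of_lt this (d r).isLt (d' r).isLt)

omit [IsUltrametricDist C] [IsAlgClosed C] in
theorem fixed_sum_digits (hω : ω ^ p ^ k = ω) (d : Fin k → ℕ) :
    (∑ r : Fin k, (d r : C) * ω ^ (r : ℕ)) ^ p ^ k = ∑ r : Fin k, (d r : C) * ω ^ (r : ℕ) := by
  rw [← iterateFrobenius_def, map_sum]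
  refine Finset.sum_congr rfl fun r _ => ?_
  rw [map_mul, map_natCast, iterateFrobenius_def, fixed_iterate hω]

omit [IsUltrametricDist C] [IsAlgClosed C] in
/-- Every fixed scalar is a combination of the powers of the generator. -/
theorem exists_digits (hk : 1 ≤ k) (hω : ω ^ p ^ k = ω)
    (hinj : Function.Injective fun t : Fin k => ω ^ p ^ (t : ℕ)) {c : C} (hc : c ^ p ^ k = c) :
    ∃ d : Fin k → ℕ, c = ∑ r : Fin k, (d r : C) * ω ^ (r : ℕ) := by
  have hQ : 2 ≤ p ^ k := le_trans (Fact.out : p.Prime).two_le (Nat.le_self_pow (by omega) p)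
  set P : Polynomial C := Polynomial.X ^ p ^ k - Polynomial.X
  have hP : P.natDegree = p ^ k := FiniteField.X_pow_card_sub_X_natDegree_eq C (by omega)
  have hP0 : P ≠ 0 := fun h => by rw [h, Polynomial.natDegree_zero] at hP; omega
  set S : Finset C := P.roots.toFinset
  have hmem : ∀ x : C, x ∈ S ↔ x ^ p ^ k = x := fun x => by
    simp [S, Polynomial.mem_roots hP0, P, sub_eq_zero]
  have hcard : S.card ≤ p ^ k :=
    le_trans (Multiset.toFinset_card_le _) (hP ▸ P.card_roots')
  set f := fun d : Fin k → Fin p => ∑ r : Fin k, ((d r : ℕ) : C) * ω ^ (r : ℕ)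
  have himg : Finset.univ.image f = S := by
    refine Finset.eq_of_subset_of_card_le (fun x hx => ?_) ?_
    · obtain ⟨d, -, rfl⟩ := Finset.mem_image.mp hx
      exact (hmem _).mpr (fixed_sum_digits hω fun r => (d r : ℕ))
    · rw [Finset.card_image_of_injective _ (sum_digits_injective hω hinj)]
      simpa using hcard
  have hcS : c ∈ S := (hmem c).mpr hc
  rw [← himg, Finset.mem_image] at hcS
  obtain ⟨d, -, hd⟩ := hcS
  exact ⟨fun r => (d r : ℕ), hd.symm⟩

theorem sharp_powers_injective (hk : 1 ≤ k) (hω : ω ^ p ^ k = ω)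
    (hinj : Function.Injective fun t : Fin k => ω ^ p ^ (t : ℕ)) :
    Function.Injective fun t : Fin k => T.sharp ω ^ p ^ (t : ℕ) := by
  intro a b e
  refine hinj ?_
  have hw := norm_fixed_le hk hω
  simp only [← sharp_pow T hw] at e
  set x := ω ^ p ^ (a : ℕ)
  set y := ω ^ p ^ (b : ℕ)
  show x = y
  by_contra hne
  have hxk : x ^ p ^ k = x := fixed_iterate hω _
  have hyk : y ^ p ^ k = y := fixed_iterate hω _
  have hd : (x - y) ^ p ^ k = x - y := by rw [sub_pow_char_pow, hxk, hyk]
  have h1 := norm_fixed hk hd (sub_ne_zero.mpr hne)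
  have h2 := T.sharp_add y (x - y) (norm_fixed_le hk hyk) h1.le
  rw [add_sub_cancel, e, sub_add_cancel_left, norm_neg, T.norm_sharp _ h1.le, h1] at h2
  exact absurd h2 (not_le.mpr inv_p_lt_one)

/-! ## operators -/

variable (p k) in
/-- The shift as a linear map. -/
def shiftL : (Fin k → PadicComplex p) →ₗ[PadicComplex p] (Fin k → PadicComplex p) where
  toFun := shiftVec k
  map_add' u v := by
    funext t; simp only [shiftVec, Pi.add_apply]; split_ifs <;> ring
  map_smul' c v := by
    funext t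
    simp only [shiftVec, Pi.smul_apply, smul_eq_mul, RingHom.id_apply]
    split_ifs <;> ring

/-- The operator of the scalar z composed with s shifts. -/
def opL (k : ℕ) (z : PadicComplex p) (s : ℕ) :
    (Fin k → PadicComplex p) →ₗ[PadicComplex p] (Fin k → PadicComplex p) :=
  LinearMap.pi fun t => z ^ p ^ (t : ℕ) • (LinearMap.proj t).comp (shiftL p k ^ s)

theorem opL_apply (z : PadicComplex p) (s : ℕ) (v : Fin k → PadicComplex p) (t : Fin k) :
    opL k z s v t = z ^ p ^ (t : ℕ) * (shiftVec k)^[s] v t := by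
  simp [opL, Module.End.pow_apply, shiftL]

theorem linVec_pow_pow (y : C) (s : ℕ) :
    linVec T k (y ^ p ^ s) = (shiftVec k)^[s] (linVec T k y) := by
  induction s with
  | zero => simp
  | succ s ih => rw [pow_succ, pow_mul, linVec_pow_p, ih, Function.iterate_succ_apply']

theorem linVec_atom (hω : ω ^ p ^ k = ω) (hω1 : ‖ω‖ ≤ 1) (r s : ℕ) {y : C} (hy : ‖y‖ ≤ 1) :
    linVec T k (ω ^ r * y ^ p ^ s) = opL k (T.sharp ω ^ r) s (linVec T k y) := by
  funext t
  rw [linVec_fixed_mul T (fixed_iterate hω r)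
    (by rw [norm_pow]; exact pow_le_one₀ (norm_nonneg _) hω1)
    (by rw [norm_pow]; exact pow_le_one₀ (norm_nonneg _) hy), opL_apply, sharp_pow T hω1,
    linVec_pow_pow]

theorem shiftVec_iterate (v : Fin k → PadicComplex p) : ∀ s ≤ k, ∀ t : Fin k,
    (shiftVec k)^[s] v t = if h : (t : ℕ) + s < k then v ⟨t + s, h⟩
      else (p : PadicComplex p) * v ⟨((t : ℕ) + s) % k, Nat.mod_lt _ t.pos⟩ := by
  intro s
  induction s with
  | zero => intro _ t; simp
  | succ s ih =>
    intro hs t
    rw [Function.iterate_succ_apply', shiftVec]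
    split_ifs with h1 h2
    · rw [ih (by omega), dif_pos (by show (t : ℕ) + 1 + s < k; omega)]
      congr 1; ext; show (t : ℕ) + 1 + s = t + (s + 1); ring
    · rw [ih (by omega), dif_neg (by show ¬ (t : ℕ) + 1 + s < k; omega)]
      congr 2; ext; show ((t : ℕ) + 1 + s) % k = (t + (s + 1)) % k; ring_nf
    · omega
    · rw [ih (by omega), dif_pos (by show 0 + s < k; omega)]
      congr 2
      ext
      show 0 + s = ((t : ℕ) + (s + 1)) % k
      rw [show (t : ℕ) + (s + 1) = s + k by omega, Nat.add_mod_right, Nat.mod_eq_of_lt (by omega)]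
      ring

theorem shiftVec_iterate_self (v : Fin k → PadicComplex p) :
    (shiftVec k)^[k] v = (p : PadicComplex p) • v := by
  funext t
  rw [shiftVec_iterate v k le_rfl t, dif_neg (by omega), Pi.smul_apply, smul_eq_mul]
  congr 2
  ext
  show ((t : ℕ) + k) % k = t
  rw [Nat.add_mod_right, Nat.mod_eq_of_lt t.isLt]

/-- The operators of a basis of fixed scalars and shifts are independent. -/
theorem opL_independent {z : PadicComplex p}
    (hz : Function.Injective fun t : Fin k => z ^ p ^ (t : ℕ))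
    (x : Fin k → Fin k → PadicComplex p)
    (h : ∀ v, ∑ s : Fin k, ∑ r : Fin k, x r s • opL k (z ^ (r : ℕ)) (s : ℕ) v = 0) : x = 0 := by
  funext r s
  suffices hs : (fun r => x r s) = 0 from congrFun hs r
  refine Matrix.eq_zero_of_forall_index_sum_mul_pow_eq_zero hz fun t => ?_
  have hpC : (p : PadicComplex p) ≠ 0 := Nat.cast_ne_zero.mpr prime_pos.ne'
  let u : Fin k := ⟨((t : ℕ) + s) % k, Nat.mod_lt _ t.pos⟩
  have hval : ∀ s' : Fin k, (shiftVec k)^[(s' : ℕ)] (Pi.single u (1 : PadicComplex p)) t =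
      if s' = s then (if (t : ℕ) + s < k then 1 else (p : PadicComplex p)) else 0 := by
    intro s'
    rw [shiftVec_iterate _ _ s'.isLt.le t]
    have hmod : ((t : ℕ) + s') % k = ((t : ℕ) + s) % k → s' = s := fun e => by
      have e' : (s' : ℕ) ≡ s [MOD k] := Nat.ModEq.add_left_cancel' _ e
      exact Fin.ext (Nat.ModEq.eq_of_lt_of_lt e' s'.isLt s.isLt)
    by_cases hs : s' = s
    · subst hs
      by_cases h1 : (t : ℕ) + s' < k
      · rw [dif_pos h1, if_pos rfl, if_pos h1,
          show (⟨(t : ℕ) + s', h1⟩ : Fin k) = u from Fin.ext (Nat.mod_eq_of_lt h1).symm,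
          Pi.single_eq_same]
      · rw [dif_neg h1, if_pos rfl, if_neg h1,
          show (⟨((t : ℕ) + s') % k, Nat.mod_lt _ t.pos⟩ : Fin k) = u from rfl,
          Pi.single_eq_same, mul_one]
    · rw [if_neg hs]
      by_cases h1 : (t : ℕ) + s' < k
      · rw [dif_pos h1, Pi.single_eq_of_ne]
        intro e
        exact hs (hmod (by rw [Nat.mod_eq_of_lt h1]; exact Fin.ext_iff.mp e))
      · rw [dif_neg h1, Pi.single_eq_of_ne, mul_zero]
        intro e
        exact hs (hmod (Fin.ext_iff.mp e))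
  have := congrFun (h (Pi.single u 1)) t
  simp only [Finset.sum_apply, Pi.smul_apply, opL_apply, hval, smul_eq_mul, Pi.zero_apply,
    mul_ite, mul_zero, Finset.sum_ite_eq', Finset.mem_univ, if_true] at this
  rw [Finset.sum_comm] at this
  simp only [Finset.sum_ite_eq', Finset.mem_univ, if_true] at this
  have e : (∑ r : Fin k, x r s * (z ^ (r : ℕ)) ^ p ^ (t : ℕ)) = 0 := by
    split_ifs at this with h1
    · simpa [mul_assoc] using this
    · simp only [← mul_assoc, ← Finset.sum_mul] at this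
      exact (mul_eq_zero.mp this).resolve_right hpC
  simpa [← pow_mul, mul_comm] using e

/-- The operators span all endomorphisms. -/
theorem opL_span {z : PadicComplex p} (hz : Function.Injective fun t : Fin k => z ^ p ^ (t : ℕ)) :
    Submodule.span (PadicComplex p)
      (Set.range fun rs : Fin k × Fin k => opL k (z ^ (rs.1 : ℕ)) (rs.2 : ℕ)) = ⊤ := by
  refine LinearIndependent.span_eq_top_of_card_eq_finrank' ?_ ?_
  · rw [Fintype.linearIndependent_iff]
    intro g hg rs
    have := opL_independent hz (fun r s => g (r, s)) fun v => by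
      have e := LinearMap.congr_fun hg v
      simp only [LinearMap.coe_sum, Finset.sum_apply, LinearMap.smul_apply, LinearMap.zero_apply] at e
      rw [Finset.sum_comm, ← Fintype.sum_prod_type']
      exact e
    exact congrFun (congrFun this rs.1) rs.2
  · simp [Module.finrank_linearMap]

end Vale.Agent.P217.I
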