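import Mathlib
import Vale.Agent.P217.I.Scalar

/-!
# P217 block I: endomorphisms of the Honda law on the linearisation

Every endomorphism acts through a combination, with p-adic integer coefficients, of the
operators of the fixed scalars and the shifts, and determines that combination faithfully.
-/

noncomputable section

namespace Vale.Agent.P217.I

open scoped Classical Topology
open Filter Vale.Agent.P217
open Finsupp (single)

variable {p : ℕ} [Fact p.Prime]

section formal

variable {C : Type} [Field C] [CharP C p] {k : ℕ} {F : FormalGroup ℤ_[p]}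

omit [Fact p.Prime] [CharP C p] in
theorem constantCoeff_subst_fin {σ : Type} (G : FormalGroup C) {a b : MvPowerSeries σ C}
    (ha : MvPowerSeries.constantCoeff a = 0) (hb : MvPowerSeries.constantCoeff b = 0) :
    MvPowerSeries.constantCoeff (MvPowerSeries.subst ![a, b] G.toPowerSeries) = 0 :=
  MvPowerSeries.constantCoeff_subst_eq_zero (hasSubst_two ha hb)
    (fun s => by fin_cases s <;> simpa) G.zero_constantCoeff

/-- The sum of two series in the law. -/
def addS (G : FormalGroup C) (b b' : PowerSeries C) : PowerSeries C :=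
  MvPowerSeries.subst ![b, b'] G.toPowerSeries

/-- A series in the variable i. -/
def inVar (i : Fin 2) (b : PowerSeries C) : MvPowerSeries (Fin 2) C :=
  PowerSeries.subst (MvPowerSeries.X i : MvPowerSeries (Fin 2) C) b

omit [Fact p.Prime] [CharP C p] in
theorem constantCoeff_inVar (i : Fin 2) {b : PowerSeries C}
    (hb : PowerSeries.constantCoeff b = 0) : MvPowerSeries.constantCoeff (inVar i b) = 0 :=
  PowerSeries.constantCoeff_subst_eq_zero (MvPowerSeries.constantCoeff_X i) b hb

/-- An endomorphism, in expanded form. -/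
def IsHom (G : FormalGroup C) (b : PowerSeries C) : Prop :=
  PowerSeries.subst G.toPowerSeries b =
    MvPowerSeries.subst ![inVar 0 b, inVar 1 b] G.toPowerSeries

omit [Fact p.Prime] [CharP C p] in
theorem isFixedEnd_iff {Q : ℕ} {G : FormalGroup C} {b : PowerSeries C} :
    IsFixedEnd Q G b ↔ (∀ i, PowerSeries.coeff i b ^ Q = PowerSeries.coeff i b) ∧
      PowerSeries.constantCoeff b = 0 ∧ IsHom G b := Iff.rfl

omit [Fact p.Prime] [CharP C p] in
theorem constantCoeff_addS (G : FormalGroup C) {b b' : PowerSeries C}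
    (hb : PowerSeries.constantCoeff b = 0) (hb' : PowerSeries.constantCoeff b' = 0) :
    PowerSeries.constantCoeff (addS G b b') = 0 :=
  constantCoeff_subst_fin G hb hb'

omit [Fact p.Prime] [CharP C p] in
theorem isHom_addS (G : FormalGroup C) [G.IsComm] {b b' : PowerSeries C}
    (hb : PowerSeries.constantCoeff b = 0) (hb' : PowerSeries.constantCoeff b' = 0)
    (h : IsHom G b) (h' : IsHom G b') : IsHom G (addS G b b') := by
  have hG := PowerSeries.HasSubst.of_constantCoeff_zero G.zero_constantCoeff
  have hs := hasSubst_two hb hb'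
  have hX : ∀ i : Fin 2, PowerSeries.HasSubst (MvPowerSeries.X i : MvPowerSeries (Fin 2) C) :=
    fun i => PowerSeries.HasSubst.of_constantCoeff_zero (MvPowerSeries.constantCoeff_X i)
  have push : ∀ w : MvPowerSeries (Fin 2) C, PowerSeries.HasSubst w →
      PowerSeries.subst w (addS G b b') =
        MvPowerSeries.subst ![PowerSeries.subst w b, PowerSeries.subst w b'] G.toPowerSeries := by
    intro w hw
    rw [addS, PowerSeries.subst_def, MvPowerSeries.subst_comp_subst_apply hs hw.const]
    congr 1
    funext i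
    fin_cases i <;> rfl
  let pt : (i : Fin 2) → (c : PowerSeries C) → PowerSeries.constantCoeff c = 0 → G.Point (Fin 2) :=
    fun i c hc => ⟨inVar i c, PowerSeries.HasSubst.of_constantCoeff_zero (constantCoeff_inVar i hc)⟩
  have key := congrArg Subtype.val (add_add_add_comm (pt 0 b hb) (pt 1 b hb) (pt 0 b' hb') (pt 1 b' hb'))
  simp only [FormalGroup.add_apply, pt] at key
  unfold IsHom at h h' ⊢
  rw [push _ hG, h, h', show inVar 0 (addS G b b') = _ from push _ (hX 0),
    show inVar 1 (addS G b b') = _ from push _ (hX 1)]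
  exact key

omit [Fact p.Prime] [CharP C p] in
theorem coeff_one_addS (G : FormalGroup C) {b b' : PowerSeries C}
    (hb : PowerSeries.constantCoeff b = 0) (hb' : PowerSeries.constantCoeff b' = 0) :
    PowerSeries.coeff 1 (addS G b b') = PowerSeries.coeff 1 b + PowerSeries.coeff 1 b' := by
  rw [addS, PowerSeries.coeff, MvPowerSeries.coeff_subst (hasSubst_two hb hb'),
    finsum_eq_sum_of_support_subset _ (s := {single 0 1, single 1 1}) ?_]
  · rw [Finset.sum_pair (by intro e; simpa using DFunLike.congr_fun e 0)]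
    simp [G.lin_coeff_X, G.lin_coeff_Y]
  · intro d hd
    rw [Function.mem_support, smul_eq_mul] at hd
    have hdeg : d.degree ≤ 1 := by
      by_contra hlt
      refine right_ne_zero_of_mul hd ?_
      rw [Finsupp.prod_fintype _ _ (fun i => pow_zero _), Fin.prod_univ_two]
      have hbX : PowerSeries.X ∣ b := PowerSeries.X_dvd_iff.mpr hb
      have hbX' : PowerSeries.X ∣ b' := PowerSeries.X_dvd_iff.mpr hb'
      have hdvd : (PowerSeries.X : PowerSeries C) ^ 2 ∣ b ^ d 0 * b' ^ d 1 :=
        dvd_trans (pow_dvd_pow _ (show 2 ≤ d 0 + d 1 by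
          rw [Finsupp.degree_eq_sum, Fin.sum_univ_two] at hlt; omega))
          (pow_add (PowerSeries.X : PowerSeries C) (d 0) (d 1) ▸
            mul_dvd_mul (pow_dvd_pow_of_dvd hbX _) (pow_dvd_pow_of_dvd hbX' _))
      exact PowerSeries.X_pow_dvd_iff.mp hdvd 1 one_lt_two
    have hd0 : d ≠ 0 := by
      rintro rfl
      refine left_ne_zero_of_mul hd ?_
      rw [MvPowerSeries.coeff_zero_eq_constantCoeff_apply]
      exact G.zero_constantCoeff
    simp only [Finset.coe_insert, Finset.coe_singleton, Set.mem_insert_iff, Set.mem_singleton_iff]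
    rw [Finsupp.degree_eq_sum, Fin.sum_univ_two] at hdeg
    by_cases h0 : d 0 = 0
    · right
      have h1 : d 1 ≠ 0 := fun h1 => hd0 (Finsupp.ext fun i => by fin_cases i <;> simpa)
      ext i; fin_cases i <;> simp <;> omega
    · left
      ext i; fin_cases i <;> simp <;> omega

theorem map_iterate_fixed {σ : Type} {f : MvPowerSeries σ C}
    (hf : ∀ m, MvPowerSeries.coeff m f ^ p ^ k = MvPowerSeries.coeff m f) :
    MvPowerSeries.map (iterateFrobenius C p k) f = f := by
  ext m
  rw [MvPowerSeries.coeff_map, iterateFrobenius_def, hf]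

theorem law_fixed (F : FormalGroup ℤ_[p]) (e : ℕ) (m : Fin 2 →₀ ℕ) :
    MvPowerSeries.coeff m (hondaIn F C).toPowerSeries ^ p ^ e =
      MvPowerSeries.coeff m (hondaIn F C).toPowerSeries := by
  simp only [hondaIn, FormalGroup.map, MvPowerSeries.coeff_map, RingHom.comp_apply]
  rw [← map_pow, ZMod.pow_card_pow]

theorem fixed_addS (F : FormalGroup ℤ_[p]) {b b' : PowerSeries C}
    (hb : PowerSeries.constantCoeff b = 0) (hb' : PowerSeries.constantCoeff b' = 0)
    (h : ∀ i, PowerSeries.coeff i b ^ p ^ k = PowerSeries.coeff i b)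
    (h' : ∀ i, PowerSeries.coeff i b' ^ p ^ k = PowerSeries.coeff i b') (i : ℕ) :
    PowerSeries.coeff i (addS (hondaIn F C) b b') ^ p ^ k =
      PowerSeries.coeff i (addS (hondaIn F C) b b') := by
  have hmap : ∀ c : PowerSeries C, (∀ i, PowerSeries.coeff i c ^ p ^ k = PowerSeries.coeff i c) →
      MvPowerSeries.map (iterateFrobenius C p k) c = c := fun c hc =>
    map_iterate_fixed fun m => by
      have := hc (m ())
      rwa [PowerSeries.coeff, show single () (m ()) = m from (Finsupp.unique_single m).symm] at this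
  have e : MvPowerSeries.map (iterateFrobenius C p k) (addS (hondaIn F C) b b') =
      addS (hondaIn F C) b b' := by
    rw [addS, MvPowerSeries.map_subst (hasSubst_two hb hb'), map_iterate_fixed (law_fixed F k)]
    congr 1
    funext s
    fin_cases s
    · exact hmap b h
    · exact hmap b' h'
  have := congrArg (MvPowerSeries.coeff (single () i)) e
  rw [MvPowerSeries.coeff_map, iterateFrobenius_def] at this
  exact this

theorem law_pow (F : FormalGroup ℤ_[p]) (e : ℕ) :
    (hondaIn F C).toPowerSeries ^ p ^ e =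
      MvPowerSeries.expand (p ^ e) (pow_ne_zero e prime_pos.ne') (hondaIn F C).toPowerSeries := by
  rw [← MvPowerSeries.map_iterateFrobenius_expand p prime_pos.ne', map_iterate_fixed]
  intro m
  by_cases hm : ∀ i, p ^ e ∣ m i
  · choose d hd using hm
    have : m = p ^ e • Finsupp.equivFunOnFinite.symm d := by ext i; simp [hd i]
    rw [this, MvPowerSeries.coeff_expand_smul, law_fixed]
  · push Not at hm
    obtain ⟨i, hi⟩ := hm
    rw [MvPowerSeries.coeff_expand_of_not_dvd _ _ _ hi, zero_pow (pow_ne_zero _ prime_pos.ne')]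

theorem inVar_atom (c : C) (e : ℕ) (i : Fin 2) :
    inVar i (PowerSeries.C c * PowerSeries.X ^ e) =
      MvPowerSeries.C c * (MvPowerSeries.X i : MvPowerSeries (Fin 2) C) ^ e := by
  have h := PowerSeries.HasSubst.of_constantCoeff_zero
    (MvPowerSeries.constantCoeff_X (R := C) i)
  rw [inVar, PowerSeries.subst_mul h, PowerSeries.subst_C, PowerSeries.subst_pow h,
    PowerSeries.subst_X h]

theorem isHom_atom (hk : 1 ≤ k) (hF : IsHondaLift k F) {c : C} (hc : c ^ p ^ k = c) (e : ℕ) :
    IsHom (hondaIn F C) (PowerSeries.C c * PowerSeries.X ^ p ^ e) := by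
  have hp := pow_ne_zero e (prime_pos (p := p)).ne'
  have hG := PowerSeries.HasSubst.of_constantCoeff_zero (hondaIn F C).zero_constantCoeff
  unfold IsHom
  rw [PowerSeries.subst_mul hG, PowerSeries.subst_C, PowerSeries.subst_pow hG,
    PowerSeries.subst_X hG, inVar_atom, inVar_atom, law_pow]
  have hr : MvPowerSeries.rescale (fun _ => c) (hondaIn F C).toPowerSeries =
      MvPowerSeries.C c * (hondaIn F C).toPowerSeries :=
    rescale_law hk hF ((ZMod.castHom (dvd_refl p) C).comp PadicInt.toZMod) c hc
  have hexp : MvPowerSeries.C c * MvPowerSeries.expand (p ^ e) hp (hondaIn F C).toPowerSeries =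
      MvPowerSeries.expand (p ^ e) hp
        (MvPowerSeries.C c * (hondaIn F C).toPowerSeries) := by
    rw [map_mul, MvPowerSeries.expand_C]
  let W : Fin 2 → C := fun _ => c
  rw [hexp, ← hr, MvPowerSeries.rescale_eq_subst W]
  have hW : MvPowerSeries.HasSubst (W • MvPowerSeries.X : Fin 2 → MvPowerSeries (Fin 2) C) :=
    MvPowerSeries.hasSubst_of_constantCoeff_zero fun s => by simp
  rw [MvPowerSeries.expand_subst (p ^ e) hp hW]
  congr 1
  funext s
  fin_cases s <;> simp [W, MvPowerSeries.smul_eq_C_mul] <;>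
    exact Or.inl (MvPowerSeries.expand_C _ _ _)

theorem coeff_inVar (i : Fin 2) (c : PowerSeries C) (a : Fin 2 →₀ ℕ)
    (ha : MvPowerSeries.coeff a (inVar i c) ≠ 0) :
    a = single i (a i) ∧ PowerSeries.coeff (a i) c ≠ 0 := by
  rw [inVar, PowerSeries.coeff_subst
    (PowerSeries.HasSubst.of_constantCoeff_zero (MvPowerSeries.constantCoeff_X i))] at ha
  obtain ⟨d, hd⟩ := not_forall.mp (mt finsum_eq_zero_of_forall_eq_zero ha)
  rw [MvPowerSeries.X_pow_eq, MvPowerSeries.coeff_monomial, smul_eq_mul, mul_ite, mul_one,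
    mul_zero] at hd
  split_ifs at hd with he
  · subst he; simpa using hd
  · exact absurd rfl hd

/-- An endomorphism without linear term is a series in the p-th power. -/
theorem coeff_eq_zero_of_hom (F : FormalGroup ℤ_[p]) {b : PowerSeries C}
    (hb0 : PowerSeries.constantCoeff b = 0) (hb1 : PowerSeries.coeff 1 b = 0)
    (hb : IsHom (hondaIn F C) b) : ∀ m, ¬ p ∣ m → PowerSeries.coeff m b = 0 := by
  intro m
  induction m using Nat.strong_induction_on with
  | _ m ih =>
    intro hm
    have hm1 : 1 ≤ m := Nat.one_le_iff_ne_zero.mpr fun h => hm (h ▸ dvd_zero p)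
    set G := (hondaIn F C).toPowerSeries
    set e : Fin 2 →₀ ℕ := single 0 (m - 1) + single 1 1 with he
    have he1 : e 1 = 1 := by simp [e]
    have hdeg : e.degree = m := by
      rw [Finsupp.degree_eq_sum, Fin.sum_univ_two]; simp [e]; omega
    have hR : MvPowerSeries.coeff e (MvPowerSeries.subst ![inVar 0 b, inVar 1 b] G) = 0 := by
      rw [MvPowerSeries.coeff_subst (hasSubst_two (constantCoeff_inVar 0 hb0)
        (constantCoeff_inVar 1 hb0))]
      refine finsum_eq_zero_of_forall_eq_zero fun d => ?_
      rw [smul_eq_mul, Finsupp.prod_fintype _ _ (fun i => pow_zero _), Fin.prod_univ_two]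
      simp only [Matrix.cons_val_zero, Matrix.cons_val_one, Matrix.cons_val_fin_one]
      have hpow : ∀ (i : Fin 2) (n : ℕ), inVar i b ^ n = inVar i (b ^ n) := fun i n => by
        rw [inVar, inVar, PowerSeries.subst_pow
          (PowerSeries.HasSubst.of_constantCoeff_zero (MvPowerSeries.constantCoeff_X i))]
      rw [hpow, hpow, MvPowerSeries.coeff_mul, Finset.sum_eq_zero, mul_zero]
      rintro ⟨a, a'⟩ haa
      rw [Finset.HasAntidiagonal.mem_antidiagonal] at haa
      by_contra hne
      obtain ⟨e0, -⟩ := coeff_inVar 0 _ a (left_ne_zero_of_mul hne)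
      obtain ⟨-, c1⟩ := coeff_inVar 1 _ a' (right_ne_zero_of_mul hne)
      have ha1 : a 1 = 0 := by rw [e0]; simp
      have hsum : a 1 + a' 1 = e 1 := by rw [← Finsupp.add_apply]; exact congrArg (fun v => v 1) haa
      rw [show a' 1 = 1 by omega] at c1
      refine c1 ?_
      cases hd : d 1 with
      | zero => simp
      | succ n =>
        rw [pow_succ, PowerSeries.coeff_mul]
        refine Finset.sum_eq_zero fun q hq => ?_
        rw [Finset.HasAntidiagonal.mem_antidiagonal] at hq
        rcases Nat.eq_zero_or_pos q.2 with h0 | h0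
        · rw [h0, PowerSeries.coeff_zero_eq_constantCoeff_apply, hb0, mul_zero]
        · rw [show q.2 = 1 by omega, hb1, mul_zero]
    have hL := congrArg (MvPowerSeries.coeff e) hb
    rw [hR, PowerSeries.coeff_subst
      (PowerSeries.HasSubst.of_constantCoeff_zero (hondaIn F C).zero_constantCoeff),
      finsum_eq_single _ m] at hL
    · have hmain : MvPowerSeries.coeff e (G ^ m) = (m : C) := by
        have hH : ∀ a : Fin 2 →₀ ℕ, a.degree ≤ 1 →
            MvPowerSeries.coeff a (G - (MvPowerSeries.X 0 + MvPowerSeries.X 1)) = 0 := by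
          intro a ha
          rw [Finsupp.degree_eq_sum, Fin.sum_univ_two] at ha
          rw [map_sub, map_add, MvPowerSeries.coeff_X, MvPowerSeries.coeff_X]
          by_cases h0 : a 0 = 0
          · by_cases h1 : a 1 = 0
            · have : a = 0 := Finsupp.ext fun i => by fin_cases i <;> simpa
              subst this
              rw [MvPowerSeries.coeff_zero_eq_constantCoeff_apply]
              simp [G, (hondaIn F C).zero_constantCoeff, eq_comm (a := (0 : Fin 2 →₀ ℕ))]
            · have : a = single 1 1 := Finsupp.ext fun i => by fin_cases i <;> simp <;> omega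
              subst this
              simp [G, (hondaIn F C).lin_coeff_Y, Finsupp.single_eq_single_iff]
          · have : a = single 0 1 := Finsupp.ext fun i => by fin_cases i <;> simp <;> omega
            subst this
            simp [G, (hondaIn F C).lin_coeff_X, Finsupp.single_eq_single_iff]
        set L : MvPowerSeries (Fin 2) C := MvPowerSeries.X 0 + MvPowerSeries.X 1 with hL'
        have hdiff : MvPowerSeries.coeff e (G ^ m - L ^ m) = 0 := by
          rw [← geom_sum₂_mul]
          refine MvPowerSeries.coeff_of_lt_order ?_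
          refine lt_of_lt_of_le ?_ (MvPowerSeries.le_order_mul (f := _) (g := G - L))
          have h1 : ((m - 1 : ℕ) : ℕ∞) ≤
              (∑ i ∈ Finset.range m, G ^ i * L ^ (m - 1 - i)).order := by
            refine MvPowerSeries.le_order fun a ha => ?_
            rw [map_sum]
            refine Finset.sum_eq_zero fun i hi => ?_
            refine MvPowerSeries.coeff_of_lt_order (lt_of_lt_of_le ha ?_)
            refine le_trans ?_ MvPowerSeries.le_order_mul
            refine le_trans ?_ (add_le_add (MvPowerSeries.le_order_pow i) (MvPowerSeries.le_order_pow _))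
            have g1 : (1 : ℕ∞) ≤ G.order :=
              MvPowerSeries.one_le_order_iff_constCoeff_eq_zero.mpr (hondaIn F C).zero_constantCoeff
            have l1 : (1 : ℕ∞) ≤ L.order :=
              MvPowerSeries.one_le_order_iff_constCoeff_eq_zero.mpr (by simp [L])
            refine le_trans ?_ (add_le_add (nsmul_le_nsmul_right g1 i) (nsmul_le_nsmul_right l1 _))
            rw [nsmul_one, nsmul_one, ← Nat.cast_add]
            exact Nat.cast_le.mpr (by have := Finset.mem_range.mp hi; omega)
          have h2 : ((2 : ℕ) : ℕ∞) ≤ (G - L).order :=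
            MvPowerSeries.le_order fun a ha => hH a (by
              have : a.degree < 2 := by exact_mod_cast ha
              omega)
          refine lt_of_lt_of_le ?_ (add_le_add h1 h2)
          rw [hdeg, ← Nat.cast_add]
          exact Nat.cast_lt.mpr (by omega)
        rw [map_sub, sub_eq_zero] at hdiff
        rw [hdiff, hL', add_pow, map_sum, Finset.sum_eq_single (m - 1)]
        · rw [show m - (m - 1) = 1 by omega, pow_one, MvPowerSeries.X_pow_eq, MvPowerSeries.X,
            MvPowerSeries.monomial_mul_monomial, mul_one,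
            ← map_natCast (MvPowerSeries.C (σ := Fin 2) (R := C)), MvPowerSeries.coeff_mul_C,
            MvPowerSeries.coeff_monomial, if_pos he, one_mul,
            Nat.choose_symm_of_eq_add (show m = (m - 1) + 1 by omega), Nat.choose_one_right]
        · intro i hi hne
          rw [MvPowerSeries.X_pow_eq, MvPowerSeries.X_pow_eq, MvPowerSeries.monomial_mul_monomial,
            ← map_natCast (MvPowerSeries.C (σ := Fin 2) (R := C)), MvPowerSeries.coeff_mul_C,
            MvPowerSeries.coeff_monomial, if_neg, zero_mul]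
          intro hcon
          apply hne
          simpa [e] using (DFunLike.congr_fun hcon 0).symm
        · intro hno; exfalso; apply hno; simp
      rw [hmain, smul_eq_mul] at hL
      exact (mul_eq_zero.mp hL).resolve_right fun h0 => hm ((CharP.cast_eq_zero_iff C p m).mp h0)
    · intro j hj
      rcases lt_or_gt_of_ne hj with hlt | hgt
      · by_cases hpj : p ∣ j
        · obtain ⟨i, rfl⟩ := hpj
          rw [mul_comm p i, pow_mul, ← MvPowerSeries.map_frobenius_expand p prime_pos.ne',
            MvPowerSeries.coeff_map, MvPowerSeries.coeff_expand_of_not_dvd p prime_pos.ne' _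
              (i := 1) (by rw [he1]; exact fun h => (Fact.out : p.Prime).ne_one (Nat.dvd_one.mp h)),
            map_zero, smul_zero]
        · rw [ih j hlt hpj, zero_smul]
      · rw [coeff_pow_eq_zero _ (hondaIn F C).zero_constantCoeff (by omega), smul_zero]

theorem hasSubst_pow_p (p : ℕ) [Fact p.Prime] :
    PowerSeries.HasSubst (PowerSeries.X ^ p : PowerSeries C) :=
  PowerSeries.HasSubst.X_pow prime_pos.ne'

/-- An endomorphism without linear term factors through the p-th power. -/
theorem exists_factor (F : FormalGroup ℤ_[p]) {b : PowerSeries C}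
    (hb : IsFixedEnd (p ^ k) (hondaIn F C) b) (hb1 : PowerSeries.coeff 1 b = 0) :
    ∃ b₁, IsFixedEnd (p ^ k) (hondaIn F C) b₁ ∧
      b = PowerSeries.subst (PowerSeries.X ^ p : PowerSeries C) b₁ := by
  obtain ⟨hfix, hb0, hhom⟩ := isFixedEnd_iff.mp hb
  have hp := (prime_pos (p := p)).ne'
  let b₁ : PowerSeries C := PowerSeries.mk fun i => PowerSeries.coeff (p * i) b
  have hb₁0 : PowerSeries.constantCoeff b₁ = 0 := by
    rw [← PowerSeries.coeff_zero_eq_constantCoeff_apply, PowerSeries.coeff_mk, mul_zero,
      PowerSeries.coeff_zero_eq_constantCoeff_apply, hb0]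
  have hexp : b = PowerSeries.expand p hp b₁ := by
    ext i
    by_cases hi : p ∣ i
    · obtain ⟨d, rfl⟩ := hi
      rw [PowerSeries.coeff_expand_mul, PowerSeries.coeff_mk]
    · rw [PowerSeries.coeff_expand_of_not_dvd p hp b₁ hi, coeff_eq_zero_of_hom F hb0 hb1 hhom i hi]
  refine ⟨b₁, isFixedEnd_iff.mpr ⟨fun i => by rw [PowerSeries.coeff_mk]; exact hfix _, hb₁0, ?_⟩,
    hexp.trans (PowerSeries.expand_apply p hp b₁)⟩
  set G := hondaIn F C with hGdef
  have hG := PowerSeries.HasSubst.of_constantCoeff_zero G.zero_constantCoeff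
  have hpow : G.toPowerSeries ^ p = MvPowerSeries.expand p hp G.toPowerSeries := by
    simpa using law_pow (C := C) F 1
  have key : ∀ w : MvPowerSeries (Fin 2) C, PowerSeries.HasSubst w →
      PowerSeries.subst w b = PowerSeries.subst (w ^ p) b₁ := by
    intro w hw
    rw [hexp, PowerSeries.expand_apply,
      PowerSeries.subst_comp_subst_apply (hasSubst_pow_p p) hw, PowerSeries.subst_pow hw,
      PowerSeries.subst_X hw]
  have hX : ∀ i : Fin 2, PowerSeries.HasSubst (MvPowerSeries.X i : MvPowerSeries (Fin 2) C) :=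
    fun i => PowerSeries.HasSubst.of_constantCoeff_zero (MvPowerSeries.constantCoeff_X i)
  have e1 : ∀ w : MvPowerSeries (Fin 2) C, PowerSeries.HasSubst w →
      MvPowerSeries.expand p hp (PowerSeries.subst w b₁) =
        PowerSeries.subst (MvPowerSeries.expand p hp w) b₁ := fun w hw => by
    rw [PowerSeries.subst_def, MvPowerSeries.expand_subst p hp hw.const, ← PowerSeries.subst_def]
  have hinj : Function.Injective (MvPowerSeries.expand p hp :
      MvPowerSeries (Fin 2) C →ₐ[C] MvPowerSeries (Fin 2) C) := fun a a' e => by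
    ext m
    have := congrArg (MvPowerSeries.coeff (p • m)) e
    rwa [MvPowerSeries.coeff_expand_smul, MvPowerSeries.coeff_expand_smul] at this
  unfold IsHom at hhom ⊢
  rw [key _ hG, inVar, inVar, key _ (hX 0), key _ (hX 1), hpow, ← e1 _ hG] at hhom
  refine hinj ?_
  rw [hhom, MvPowerSeries.expand_subst p hp
    (hasSubst_two (constantCoeff_inVar 0 hb₁0) (constantCoeff_inVar 1 hb₁0))]
  congr 1
  funext i
  fin_cases i
  · simp [inVar, e1 _ (hX 0)]
  · simp [inVar, e1 _ (hX 1)]

end formal

/-! ## action on the linearisation -/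

variable {C : Type} [NontriviallyNormedField C] [IsUltrametricDist C]
  [IsAlgClosed C] [CharP C p] [CompleteSpace C] (T : Untilt p C) {k : ℕ}
  {F : FormalGroup ℤ_[p]} {ω : C}

/-- The fixed coefficients as a subring. -/
def fixRing (C : Type) [Field C] [CharP C p] (k : ℕ) : Subring C :=
  RingHom.eqLocus (iterateFrobenius C p k) (RingHom.id C)

omit [IsUltrametricDist C] [IsAlgClosed C] [CompleteSpace C] in
theorem mem_fixRing {c : C} : c ∈ fixRing (p := p) C k ↔ c ^ p ^ k = c := by
  show iterateFrobenius C p k c = c ↔ _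
  rw [iterateFrobenius_def]

/-- A series with fixed coefficients, over the fixed coefficients. -/
def lift (k : ℕ) (b : PowerSeries C)
    (hb : ∀ i, PowerSeries.coeff i b ^ p ^ k = PowerSeries.coeff i b) :
    PowerSeries (fixRing (p := p) C k) :=
  PowerSeries.mk fun i => ⟨PowerSeries.coeff i b, mem_fixRing.mpr (hb i)⟩

omit [IsUltrametricDist C] [IsAlgClosed C] [CompleteSpace C] in
theorem map_lift (b : PowerSeries C) (hb) :
    PowerSeries.map (fixRing (p := p) C k).subtype (lift k b hb) = b := by
  ext i; simp [lift]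

omit [IsUltrametricDist C] [IsAlgClosed C] [CompleteSpace C] in
theorem constantCoeff_lift {b : PowerSeries C} (hb) (h0 : PowerSeries.constantCoeff b = 0) :
    PowerSeries.constantCoeff (lift (p := p) k b hb) = 0 := by
  rw [← PowerSeries.coeff_zero_eq_constantCoeff_apply]
  ext
  simpa [lift] using h0

omit [IsUltrametricDist C] [IsAlgClosed C] [CompleteSpace C] in
theorem peval_lift (b : PowerSeries C) (hb) (y : C) :
    peval (fixRing (p := p) C k).subtype (lift k b hb) y = peval (RingHom.id C) b y := by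
  simp [peval, lift]

omit [IsUltrametricDist C] [IsAlgClosed C] [CompleteSpace C] in
theorem norm_fixRing (hk : 1 ≤ k) (c : fixRing (p := p) C k) : ‖(fixRing (p := p) C k).subtype c‖ ≤ 1 :=
  norm_fixed_le hk (mem_fixRing.mp c.2)

omit [IsAlgClosed C] [CompleteSpace C] in
theorem norm_peval_end (hk : 1 ≤ k) {b : PowerSeries C}
    (hb : IsFixedEnd (p ^ k) (hondaIn F C) b) {y : C} (hy : ‖y‖ ≤ 1) :
    ‖peval (RingHom.id C) b y‖ ≤ ‖y‖ := by
  rw [← peval_lift b hb.1]
  exact Eval.norm_peval_le (norm_fixRing hk) hy _ (constantCoeff_lift hb.1 hb.2.1)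

omit [IsAlgClosed C] in
theorem peval_pow_fixed (hk : 1 ≤ k) {b : PowerSeries C}
    (hb : ∀ i, PowerSeries.coeff i b ^ p ^ k = PowerSeries.coeff i b) {y : C} (hy : ‖y‖ < 1) :
    peval (RingHom.id C) b (y ^ p ^ k) = peval (RingHom.id C) b y ^ p ^ k := by
  have hy' : ‖y ^ p ^ k‖ < 1 := by
    rw [norm_pow]; exact pow_lt_one₀ (norm_nonneg _) hy (pow_ne_zero _ prime_pos.ne')
  rw [← peval_lift b hb, ← peval_lift b hb, peval, peval]
  set f := lift k b hb
  have h1 := (Eval.hasSum_evalHom (fixRing (p := p) C k).subtype (norm_fixRing hk)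
    (fun _ : Unit => y) (fun _ => hy) f).summable
  have hs : Summable fun i : ℕ =>
      (fixRing (p := p) C k).subtype (PowerSeries.coeff i f) * y ^ i := by
    have := (Finsupp.uniqueEquiv (M := ℕ) ()).symm.summable_iff.mpr h1
    simpa [Function.comp_def, PowerSeries.coeff, Finsupp.uniqueEquiv] using this
  have hmap := Summable.map_tsum hs (iterateFrobenius C p k)
    ((continuous_pow (p ^ k)).congr fun x => (iterateFrobenius_def (R := C) p k x).symm)
  simp only [iterateFrobenius_def] at hmap
  rw [hmap]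
  refine tsum_congr fun i => ?_
  rw [mul_pow, ← pow_mul, ← pow_mul, mul_comm (p ^ k) i, Subring.coe_subtype,
    mem_fixRing.mp (PowerSeries.coeff i f).2]

omit [IsAlgClosed C] in
theorem peval_addS (hk : 1 ≤ k) (F : FormalGroup ℤ_[p]) {b b' : PowerSeries C}
    (h : ∀ i, PowerSeries.coeff i b ^ p ^ k = PowerSeries.coeff i b)
    (h' : ∀ i, PowerSeries.coeff i b' ^ p ^ k = PowerSeries.coeff i b')
    (hb : PowerSeries.constantCoeff b = 0) (hb' : PowerSeries.constantCoeff b' = 0)
    {y : C} (hy : ‖y‖ < 1) :
    peval (RingHom.id C) (addS (hondaIn F C) b b') y =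
      gadd (hondaIn F C) (peval (RingHom.id C) b y) (peval (RingHom.id C) b' y) := by
  set S := fixRing (p := p) C k
  let G' : MvPowerSeries (Fin 2) S := fun m =>
    ⟨MvPowerSeries.coeff m (hondaIn F C).toPowerSeries, mem_fixRing.mpr (law_fixed F k m)⟩
  have hu : ∀ s, PowerSeries.constantCoeff (![lift k b h, lift k b' h'] s) = 0 := fun s => by
    fin_cases s
    · exact constantCoeff_lift h hb
    · exact constantCoeff_lift h' hb'
  have e1 : addS (hondaIn F C) b b' =
      PowerSeries.map S.subtype (MvPowerSeries.subst ![lift k b h, lift k b' h'] G') := by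
    show _ = MvPowerSeries.map S.subtype _
    rw [MvPowerSeries.map_subst (MvPowerSeries.hasSubst_of_constantCoeff_zero hu), addS]
    congr 1
    funext s
    fin_cases s
    · exact (map_lift b h).symm
    · exact (map_lift b' h').symm
  rw [e1, Eval.peval_map, RingHom.id_comp, Eval.peval_subst_mv (norm_fixRing hk) hy hu]
  unfold gadd
  have e2 : (fun s => peval S.subtype (![lift k b h, lift k b' h'] s) y) =
      ![peval (RingHom.id C) b y, peval (RingHom.id C) b' y] := by
    funext s
    fin_cases s <;> simp [peval_lift, S]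
  rw [e2]
  rfl

/-- The endomorphism u has linear term c and acts as L. -/
def Acts (T : Untilt p C) (k : ℕ) (F : FormalGroup ℤ_[p]) (c : C)
    (L : (Fin k → PadicComplex p) →ₗ[PadicComplex p] (Fin k → PadicComplex p)) : Prop :=
  ∃ u, IsFixedEnd (p ^ k) (hondaIn F C) u ∧ PowerSeries.coeff 1 u = c ∧
    ∀ y, ‖y‖ < 1 → linVec T k (peval (RingHom.id C) u y) = L (linVec T k y)

omit [CompleteSpace C] in
theorem acts_zero : Acts T k F (0 : C) 0 := by
  refine ⟨0, ⟨fun i => by simp [zero_pow (pow_ne_zero _ (prime_pos (p := p)).ne')], by simp, ?_⟩,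
    by simp, fun y _ => by rw [Eval.peval_zero, linVec_zero]; rfl⟩
  have hs : ∀ w : MvPowerSeries (Fin 2) C, PowerSeries.HasSubst w →
      PowerSeries.subst w (0 : PowerSeries C) = 0 := fun w hw => by
    rw [← map_zero PowerSeries.C, PowerSeries.subst_C, map_zero]
  rw [hs _ (PowerSeries.HasSubst.of_constantCoeff_zero (hondaIn F C).zero_constantCoeff),
    hs _ (PowerSeries.HasSubst.of_constantCoeff_zero (by simp)),
    hs _ (PowerSeries.HasSubst.of_constantCoeff_zero (by simp)),
    show (![0, 0] : Fin 2 → MvPowerSeries (Fin 2) C) = 0 by ext i; fin_cases i <;> rfl,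
    MvPowerSeries.subst_zero_of_constantCoeff_zero (hondaIn F C).zero_constantCoeff]

theorem acts_add (hk : 1 ≤ k) (hF : IsHondaLift k F) {c c' : C} {L L'}
    (h : Acts T k F c L) (h' : Acts T k F c' L') : Acts T k F (c + c') (L + L') := by
  obtain ⟨u, hu, rfl, hL⟩ := h
  obtain ⟨u', hu', rfl, hL'⟩ := h'
  have : F.IsComm := isComm_of_lift hk hF
  have : (hondaIn F C).IsComm := isComm_map F _
  obtain ⟨f1, f2, f3⟩ := isFixedEnd_iff.mp hu
  obtain ⟨g1, g2, g3⟩ := isFixedEnd_iff.mp hu'
  refine ⟨addS (hondaIn F C) u u', isFixedEnd_iff.mpr ⟨fixed_addS F f2 g2 f1 g1,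
    constantCoeff_addS _ f2 g2, isHom_addS _ f2 g2 f3 g3⟩, coeff_one_addS _ f2 g2, fun y hy => ?_⟩
  rw [peval_addS hk F f1 g1 f2 g2 hy,
    linVec_gadd T hk hF (lt_of_le_of_lt (norm_peval_end hk hu hy.le) hy)
      (lt_of_le_of_lt (norm_peval_end hk hu' hy.le) hy), hL y hy, hL' y hy, LinearMap.add_apply]

omit [IsUltrametricDist C] [IsAlgClosed C] [CompleteSpace C] in
theorem atom_end (hk : 1 ≤ k) (hF : IsHondaLift k F) {c : C} (hc : c ^ p ^ k = c) (e : ℕ) :
    IsFixedEnd (p ^ k) (hondaIn F C) (PowerSeries.C c * PowerSeries.X ^ p ^ e) := by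
  refine isFixedEnd_iff.mpr ⟨fun i => ?_, ?_, isHom_atom hk hF hc e⟩
  · rw [PowerSeries.coeff_C_mul_X_pow]
    split_ifs with h
    · exact hc
    · exact zero_pow (pow_ne_zero _ prime_pos.ne')
  · simp [zero_pow (pow_ne_zero e (prime_pos (p := p)).ne')]

theorem acts_gen (hk : 1 ≤ k) (hF : IsHondaLift k F) (hω : ω ^ p ^ k = ω) (r : ℕ) :
    Acts T k F (ω ^ r) (opL k (T.sharp ω ^ r) 0) := by
  refine ⟨_, atom_end hk hF (fixed_iterate hω r) 0, by simp, fun y hy => ?_⟩
  rw [Eval.peval_C_mul_X_pow, RingHom.id_apply]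
  exact linVec_atom T hω (norm_fixed_le hk hω) r 0 hy.le

theorem acts_sum (hk : 1 ≤ k) (hF : IsHondaLift k F) (hω : ω ^ p ^ k = ω) (d : Fin k → ℕ) :
    Acts T k F (∑ r : Fin k, (d r : C) * ω ^ (r : ℕ))
      (∑ r : Fin k, d r • opL k (T.sharp ω ^ (r : ℕ)) 0) := by
  refine Finset.induction_on (motive := fun s => Acts T k F
    (∑ r ∈ s, (d r : C) * ω ^ (r : ℕ)) (∑ r ∈ s, d r • opL k (T.sharp ω ^ (r : ℕ)) 0))
    Finset.univ ?_ ?_
  · simpa using acts_zero T
  · intro r s hr ih
    rw [Finset.sum_insert hr, Finset.sum_insert hr]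
    refine acts_add T hk hF ?_ ih
    induction d r with
    | zero => simpa using acts_zero T
    | succ n ihn =>
      rw [Nat.cast_succ, add_mul, one_mul, succ_nsmul]
      exact acts_add T hk hF ihn (acts_gen T hk hF hω r)

/-- Peel the linear term of an endomorphism. -/
theorem exists_step (hk : 1 ≤ k) (hF : IsHondaLift k F) (hω : ω ^ p ^ k = ω)
    (hinj : Function.Injective fun t : Fin k => ω ^ p ^ (t : ℕ)) {b : PowerSeries C}
    (hb : IsFixedEnd (p ^ k) (hondaIn F C) b) :
    ∃ (d : Fin k → ℕ) (b' : PowerSeries C), IsFixedEnd (p ^ k) (hondaIn F C) b' ∧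
      ∀ y, ‖y‖ < 1 → linVec T k (peval (RingHom.id C) b y) +
        (∑ r : Fin k, d r • opL k (T.sharp ω ^ (r : ℕ)) 0) (linVec T k y) =
          linVec T k (peval (RingHom.id C) b' (y ^ p)) := by
  have hfix : (-PowerSeries.coeff 1 b) ^ p ^ k = -PowerSeries.coeff 1 b := by
    rw [← iterateFrobenius_def, map_neg, iterateFrobenius_def, hb.1]
  obtain ⟨d, hd⟩ := exists_digits hk hω hinj hfix
  obtain ⟨u, hu, hu1, hL⟩ := acts_sum T hk hF hω d
  have : F.IsComm := isComm_of_lift hk hF
  have : (hondaIn F C).IsComm := isComm_map F _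
  obtain ⟨f1, f2, f3⟩ := isFixedEnd_iff.mp hb
  obtain ⟨g1, g2, g3⟩ := isFixedEnd_iff.mp hu
  have hw : IsFixedEnd (p ^ k) (hondaIn F C) (addS (hondaIn F C) b u) :=
    isFixedEnd_iff.mpr ⟨fixed_addS F f2 g2 f1 g1, constantCoeff_addS _ f2 g2,
      isHom_addS _ f2 g2 f3 g3⟩
  obtain ⟨b', hb', e⟩ := exists_factor F hw (by
    rw [coeff_one_addS _ f2 g2, hu1, ← hd, add_neg_cancel])
  refine ⟨d, b', hb', fun y hy => ?_⟩
  rw [← hL y hy, ← linVec_gadd T hk hF (lt_of_le_of_lt (norm_peval_end hk hb hy.le) hy)
    (lt_of_le_of_lt (norm_peval_end hk hu hy.le) hy), ← peval_addS hk F f1 g1 f2 g2 hy, e]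
  congr 1
  have hq : ‖y ^ p‖ < 1 := by rw [norm_pow]; exact pow_lt_one₀ (norm_nonneg _) hy prime_pos.ne'
  rw [← peval_lift b' hb'.1 (y ^ p)]
  have e2 : PowerSeries.subst (PowerSeries.X ^ p : PowerSeries C) b' =
      PowerSeries.map (fixRing (p := p) C k).subtype (PowerSeries.subst
        (PowerSeries.X ^ p : PowerSeries (fixRing (p := p) C k)) (lift k b' hb'.1)) := by
    have hX : PowerSeries.HasSubst (PowerSeries.X ^ p : PowerSeries (fixRing (p := p) C k)) :=
      PowerSeries.HasSubst.X_pow prime_pos.ne'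
    show _ = MvPowerSeries.map _ _
    rw [PowerSeries.map_subst hX, map_lift]
    congr 1
    show _ = PowerSeries.map _ _
    simp
  rw [e2, Eval.peval_map, RingHom.id_comp,
    Eval.peval_subst (norm_fixRing hk) hy (by simp [zero_pow (prime_pos (p := p)).ne'])]
  congr 1
  have := Eval.peval_C_mul_X_pow (j := (fixRing (p := p) C k).subtype) (y := y) p 1
  simpa using this

variable (k) in
/-- A combination of all operators. -/
def comb (z : PadicComplex p) (a : Fin k → Fin k → PadicComplex p) :
    (Fin k → PadicComplex p) →ₗ[PadicComplex p] (Fin k → PadicComplex p) :=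
  ∑ r : Fin k, ∑ s : Fin k, a r s • opL k (z ^ (r : ℕ)) (s : ℕ)

theorem comb_add (z : PadicComplex p) (a a' : Fin k → Fin k → PadicComplex p) :
    comb k z (a + a') = comb k z a + comb k z a' := by
  simp [comb, add_smul, Finset.sum_add_distrib]

theorem comb_smul (z : PadicComplex p) (c : PadicComplex p) (a : Fin k → Fin k → PadicComplex p) :
    comb k z (c • a) = c • comb k z a := by
  simp [comb, Finset.smul_sum, smul_smul]

theorem exists_round (hk : 1 ≤ k) (hF : IsHondaLift k F) (hω : ω ^ p ^ k = ω)
    (hinj : Function.Injective fun t : Fin k => ω ^ p ^ (t : ℕ)) {b : PowerSeries C}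
    (hb : IsFixedEnd (p ^ k) (hondaIn F C) b) :
    ∃ (d : Fin k → Fin k → ℕ) (b' : PowerSeries C), IsFixedEnd (p ^ k) (hondaIn F C) b' ∧
      ∀ y, ‖y‖ < 1 → linVec T k (peval (RingHom.id C) b y) +
        comb k (T.sharp ω) (fun r s => (d r s : PadicComplex p)) (linVec T k y) =
          (p : PadicComplex p) • linVec T k (peval (RingHom.id C) b' y) := by
  have hmain : ∀ i, i ≤ k → ∃ (d : Fin k → Fin k → ℕ) (b' : PowerSeries C),
      IsFixedEnd (p ^ k) (hondaIn F C) b' ∧ ∀ y, ‖y‖ < 1 →
        linVec T k (peval (RingHom.id C) b y) +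
          comb k (T.sharp ω) (fun r s => (d r s : PadicComplex p)) (linVec T k y) =
            linVec T k (peval (RingHom.id C) b' (y ^ p ^ i)) := by
    intro i
    induction i with
    | zero =>
      intro _
      exact ⟨0, b, hb, fun y _ => by simp [comb]⟩
    | succ i ih =>
      intro hi
      obtain ⟨d, b', hb', hd⟩ := ih (by omega)
      obtain ⟨d₁, b'', hb'', hd₁⟩ := exists_step T hk hF hω hinj hb'
      let i' : Fin k := ⟨i, by omega⟩
      refine ⟨fun r s => d r s + if s = i' then d₁ r else 0, b'', hb'', fun y hy => ?_⟩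
      have hy' : ‖y ^ p ^ i‖ < 1 := by
        rw [norm_pow]; exact pow_lt_one₀ (norm_nonneg _) hy (pow_ne_zero _ prime_pos.ne')
      rw [pow_succ, pow_mul, ← hd₁ _ hy', ← hd y hy]
      have e : (fun r s : Fin k => ((d r s + if s = i' then d₁ r else 0 : ℕ) : PadicComplex p)) =
          (fun r s => (d r s : PadicComplex p)) +
            fun r s => if s = i' then (d₁ r : PadicComplex p) else 0 := by
        funext r s
        simp only [Pi.add_apply]
        split_ifs <;> simp
      rw [e, comb_add, LinearMap.add_apply, ← add_assoc]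
      congr 1
      simp only [comb, LinearMap.coe_sum, Finset.sum_apply, LinearMap.smul_apply, ite_smul,
        zero_smul, Finset.sum_ite_eq', Finset.mem_univ, if_true, ← Nat.cast_smul_eq_nsmul (PadicComplex p)]
      refine Finset.sum_congr rfl fun r _ => ?_
      congr 1
      funext t
      simp [opL_apply, linVec_pow_pow, i']
  obtain ⟨d, b', hb', hd⟩ := hmain k le_rfl
  refine ⟨d, b', hb', fun y hy => ?_⟩
  rw [hd y hy, peval_pow_fixed hk hb'.1 hy, linVec_pow_pow, shiftVec_iterate_self]

/-- An endomorphism acts through a combination with p-adic integer coefficients. -/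
theorem exists_comb (hk : 1 ≤ k) (hF : IsHondaLift k F) (hω : ω ^ p ^ k = ω)
    (hinj : Function.Injective fun t : Fin k => ω ^ p ^ (t : ℕ)) {b : PowerSeries C}
    (hb : IsFixedEnd (p ^ k) (hondaIn F C) b) :
    ∃ a : Fin k → Fin k → ℤ_[p], ∀ y, ‖y‖ < 1 → linVec T k (peval (RingHom.id C) b y) =
      comb k (T.sharp ω) (fun r s => jP p (a r s)) (linVec T k y) := by
  have step := fun c : {c : PowerSeries C // IsFixedEnd (p ^ k) (hondaIn F C) c} =>
    exists_round T hk hF hω hinj c.2
  choose d next hnext hround using step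
  let seq : ℕ → {c : PowerSeries C // IsFixedEnd (p ^ k) (hondaIn F C) c} :=
    Nat.rec ⟨b, hb⟩ fun _ c => ⟨next c, hnext c⟩
  have hsummable : ∀ r s, Summable fun i : ℕ => (p : ℤ_[p]) ^ i * -(d (seq i) r s : ℤ_[p]) := by
    intro r s
    refine NonarchimedeanAddGroup.summable_of_tendsto_cofinite_zero ?_
    rw [Nat.cofinite_eq_atTop]
    refine squeeze_zero_norm (fun i => ?_)
      (tendsto_pow_atTop_nhds_zero_of_lt_one (by positivity) (inv_p_lt_one (p := p)))
    rw [norm_mul, norm_pow, PadicInt.norm_p]
    exact mul_le_of_le_one_right (by positivity) (PadicInt.norm_le_one _)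
  let A : ℕ → Fin k → Fin k → ℤ_[p] := fun N r s =>
    ∑ i ∈ Finset.range N, (p : ℤ_[p]) ^ i * -(d (seq i) r s : ℤ_[p])
  refine ⟨fun r s => ∑' i, (p : ℤ_[p]) ^ i * -(d (seq i) r s : ℤ_[p]), fun y hy => ?_⟩
  set z := T.sharp ω
  set v := linVec T k y
  set val : ℕ → (Fin k → PadicComplex p) := fun N =>
    linVec T k (peval (RingHom.id C) (seq N).1 y)
  have hN : ∀ N, linVec T k (peval (RingHom.id C) b y) =
      comb k z (fun r s => jP p (A N r s)) v + (p : PadicComplex p) ^ N • val N := by
    intro N
    induction N with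
    | zero => simp [A, comb, val, seq]
    | succ N ih =>
      have e : (fun r s => jP p (A (N + 1) r s)) = (fun r s => jP p (A N r s)) +
          (-((p : PadicComplex p) ^ N)) • (fun r s => (d (seq N) r s : PadicComplex p)) := by
        funext r s
        simp only [A, Finset.sum_range_succ, map_add, map_mul, map_pow, map_neg, map_natCast,
          Pi.add_apply, Pi.smul_apply, smul_eq_mul]
        ring
      have hr : (p : PadicComplex p) • val (N + 1) =
          val N + comb k z (fun r s => (d (seq N) r s : PadicComplex p)) v :=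
        (hround (seq N) y hy).symm
      rw [ih, e, comb_add, comb_smul, pow_succ, mul_smul, hr, LinearMap.add_apply,
        LinearMap.smul_apply, smul_add, neg_smul]
      abel
  obtain ⟨B, hB0, hB⟩ := exists_bound T hk (norm_nonneg y) hy
  have hcomb : Continuous fun a : Fin k → Fin k → PadicComplex p => comb k z a v := by
    simp only [comb, LinearMap.coe_sum, Finset.sum_apply, LinearMap.smul_apply]
    exact continuous_finsetSum _ fun r _ => continuous_finsetSum _ fun s _ =>
      (show Continuous fun a : Fin k → Fin k → PadicComplex p => a r s from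
        continuous_apply_apply r s).smul continuous_const
  have hjP : Continuous (jP p) :=
    AddMonoidHomClass.continuous_of_bound (jP p) 1 fun c => by rw [one_mul, norm_jP_eq]
  have hlim : Tendsto (fun N => comb k z (fun r s => jP p (A N r s)) v) atTop
      (𝓝 (comb k z (fun r s => jP p (∑' i, (p : ℤ_[p]) ^ i * -(d (seq i) r s : ℤ_[p]))) v)) :=
    (hcomb.tendsto _).comp (tendsto_pi_nhds.mpr fun r => tendsto_pi_nhds.mpr fun s =>
      (hjP.tendsto _).comp (hsummable r s).hasSum.tendsto_sum_nat)
  have hzero : Tendsto (fun N => (p : PadicComplex p) ^ N • val N) atTop (𝓝 0) := by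
    refine squeeze_zero_norm (fun N => ?_) ((tendsto_pow_atTop_nhds_zero_of_lt_one (by positivity)
      (inv_p_lt_one (p := p))).mul_const B |>.trans (by rw [zero_mul]))
    rw [norm_smul, norm_pow, norm_p]
    exact mul_le_mul_of_nonneg_left
      (hB _ (norm_peval_end hk (seq N).2 hy.le)) (by positivity)
  have := hlim.add hzero
  rw [add_zero] at this
  exact tendsto_nhds_unique (by simp only [← hN]; exact tendsto_const_nhds) this

/-- An endomorphism acting as zero is zero. -/
theorem eq_zero_of_lin (hk : 1 ≤ k) {b : PowerSeries C}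
    (hb : IsFixedEnd (p ^ k) (hondaIn F C) b)
    (h : ∀ y, ‖y‖ < 1 → linVec T k (peval (RingHom.id C) b y) = 0) : b = 0 := by
  by_contra hne
  have hex : ∃ i, PowerSeries.coeff i b ≠ 0 := by
    by_contra hall
    push Not at hall
    exact hne (PowerSeries.ext fun i => by simp [hall i])
  set m := Nat.find hex
  have hm : PowerSeries.coeff m b ≠ 0 := Nat.find_spec hex
  have hmin : ∀ i < m, PowerSeries.coeff i b = 0 := fun i hi => not_not.mp (Nat.find_min hex hi)
  have hm1 : 1 ≤ m := Nat.one_le_iff_ne_zero.mpr fun h0 => by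
    rw [h0, PowerSeries.coeff_zero_eq_constantCoeff_apply] at hm
    exact hm hb.2.1
  obtain ⟨w, hw⟩ := IsAlgClosed.exists_pow_nat_eq (p : PadicComplex p) two_pos
  have hw2 : ‖w‖ ^ 2 = (p : ℝ)⁻¹ := by rw [← norm_pow, hw, norm_p]
  have hp : (0 : ℝ) < (p : ℝ)⁻¹ := inv_pos.mpr (by exact_mod_cast prime_pos)
  have hw1 : ‖w‖ < 1 := by
    by_contra hge
    have := one_le_pow₀ (n := 2) (not_lt.mp hge)
    linarith [hw2, inv_p_lt_one (p := p)]
  have hw0 : (p : ℝ)⁻¹ < ‖w‖ := by
    have hpos : 0 < ‖w‖ := lt_of_le_of_ne (norm_nonneg _) fun e => by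
      rw [← e] at hw2; simp at hw2; linarith [(by exact_mod_cast prime_pos : (0 : ℝ) < p)]
    nlinarith
  obtain ⟨x, hx1, hx⟩ := T.sharp_surj w hw1.le
  have hxn : ‖x‖ = ‖w‖ := by
    rw [← T.norm_sharp x hx1, show T.sharp x = w + (T.sharp x - w) by ring,
      IsUltrametricDist.norm_add_eq_max_of_norm_ne_norm (ne_of_gt (lt_of_le_of_lt hx hw0)),
      max_eq_left (le_of_lt (lt_of_le_of_lt hx hw0))]
  set y := x ^ (2 * (p + 1))
  have hyn : ‖y‖ = (p : ℝ)⁻¹ ^ (p + 1) := by rw [norm_pow, hxn, pow_mul, hw2]
  have hy : ‖y‖ < 1 := by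
    rw [hyn]; exact pow_lt_one₀ hp.le inv_p_lt_one (Nat.succ_ne_zero p)
  have hy0 : 0 < ‖y‖ := by rw [hyn]; positivity
  set S := fixRing (p := p) C k
  set f := lift k b hb.1
  have hsum : Summable fun i : ℕ => S.subtype (PowerSeries.coeff i f) * y ^ i := by
    have := (Finsupp.uniqueEquiv (M := ℕ) ()).symm.summable_iff.mpr
      (Eval.hasSum_evalHom S.subtype (norm_fixRing hk) (fun _ : Unit => y) (fun _ => hy) f).summable
    simpa [Function.comp_def, PowerSeries.coeff, Finsupp.uniqueEquiv] using this
  have hval : ‖peval (RingHom.id C) b y‖ = ‖y‖ ^ m := by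
    rw [← peval_lift b hb.1, peval, hsum.tsum_eq_add_tsum_ite m]
    have hcoef : S.subtype (PowerSeries.coeff m f) = PowerSeries.coeff m b := by simp [f, lift, S]
    have hlead : ‖S.subtype (PowerSeries.coeff m f) * y ^ m‖ = ‖y‖ ^ m := by
      rw [hcoef, norm_mul, norm_fixed hk (hb.1 m) hm, one_mul, norm_pow]
    have hrest : ‖∑' i, if i = m then 0 else S.subtype (PowerSeries.coeff i f) * y ^ i‖ ≤
        ‖y‖ ^ (m + 1) := by
      refine IsUltrametricDist.norm_tsum_le_of_forall_le_of_nonneg (by positivity) fun i => ?_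
      split_ifs with hi
      · simp [pow_nonneg (norm_nonneg y)]
      · rcases lt_or_gt_of_ne hi with hlt | hgt
        · have : S.subtype (PowerSeries.coeff i f) = 0 := by simpa [f, lift, S] using hmin i hlt
          rw [this, zero_mul, norm_zero]; positivity
        · rw [norm_mul, norm_pow]
          exact le_trans (mul_le_of_le_one_left (by positivity) (norm_fixRing hk _))
            (pow_le_pow_of_le_one (norm_nonneg y) hy.le hgt)
    have hlt : ‖y‖ ^ (m + 1) < ‖y‖ ^ m := pow_lt_pow_right_of_lt_one₀ hy0 hy (Nat.lt_succ_self m)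
    rw [IsUltrametricDist.norm_add_eq_max_of_norm_ne_norm
      (by rw [hlead]; exact ne_of_gt (lt_of_le_of_lt hrest hlt)), hlead,
      max_eq_left (le_trans hrest hlt.le)]
  refine linVec_ne_zero_special T hk hm1 ?_ (h y hy)
  rw [hval, hyn, ← pow_mul]

end Vale.Agent.P217.I
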