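import Mathlib
import Vale.Agent.P217.I.End

/-!
# P217 block I: there is no relation
-/

noncomputable section

namespace Vale.Agent.P217

open scoped Classical Topology
open Filter

open I in
/-- The relation among the period images forces all the endomorphisms to vanish. -/
theorem blockI : BlockI := by
  intro p n h _ C _ _ _ _ _ T Gn Gh h1 hn hGn hGh D b hb hrel
  have hn1 : 1 ≤ n := by omega
  have hn2 : 2 ≤ n := by omega
  obtain ⟨ω, hω, hωi⟩ := exists_generator (p := p) (C := C) h1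
  obtain ⟨η, hη, hηi⟩ := exists_generator (p := p) (C := C) hn1
  set z := T.sharp ω
  set w := T.sharp η
  have hz : Function.Injective fun t : Fin h => z ^ p ^ (t : ℕ) := sharp_powers_injective T h1 hω hωi
  have hw : Function.Injective fun t : Fin n => w ^ p ^ (t : ℕ) := sharp_powers_injective T hn1 hη hηi
  choose a ha using fun j => exists_comb T h1 hGh hω hωi (hb j)
  let A : (Fin n → PadicComplex p) →ₗ[PadicComplex p] (Fin h → PadicComplex p) := D.mat.mulVecLin
  let e : Fin (n - h) → Fin n → PadicComplex p := fun j => linVec T n (D.xi j)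
  let R : Fin h → Fin h → (Fin h → PadicComplex p) →ₗ[PadicComplex p] (Fin h → PadicComplex p) :=
    fun r s => opL h (z ^ (r : ℕ)) (s : ℕ)
  let v : Fin h → Fin h → Fin n → PadicComplex p := fun r s => ∑ j, jP p (a j r s) • e j
  have hη1 : ‖η‖ ≤ 1 := norm_fixed_le hn1 hη
  have hω1 : ‖ω‖ ≤ 1 := norm_fixed_le h1 hω
  -- the relation in linearised form
  let Ψ : ((Fin n → PadicComplex p) →ₗ[PadicComplex p] (Fin n → PadicComplex p)) →ₗ[PadicComplex p]
      (Fin h → PadicComplex p) :=
    ∑ r : Fin h, ∑ s : Fin h, ((R r s).comp A).comp (LinearMap.applyₗ (v r s))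
  have hΨ : ∀ X, Ψ X = ∑ r : Fin h, ∑ s : Fin h, R r s (A (X (v r s))) := fun X => by
    simp [Ψ, LinearMap.coe_sum, Finset.sum_apply]
  have hgen : ∀ r' s' : Fin n, Ψ (opL n (w ^ (r' : ℕ)) (s' : ℕ)) = 0 := by
    intro r' s'
    set c : PowerSeries C := PowerSeries.C (η ^ (r' : ℕ)) * PowerSeries.X ^ p ^ (s' : ℕ) with hc
    have hend : IsFixedEnd (p ^ n) (hondaIn Gn C) c := atom_end hn1 hGn (fixed_iterate hη _) _
    have hval : ∀ j, peval (RingHom.id C) c (D.xi j) = η ^ (r' : ℕ) * D.xi j ^ p ^ (s' : ℕ) :=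
      fun j => by rw [hc, Eval.peval_C_mul_X_pow, RingHom.id_apply]
    have hsmall : ∀ j, ‖η ^ (r' : ℕ) * D.xi j ^ p ^ (s' : ℕ)‖ < 1 := fun j => by
      rw [norm_mul, norm_pow, norm_pow]
      exact lt_of_le_of_lt (mul_le_of_le_one_left (pow_nonneg (norm_nonneg _) _)
        (pow_le_one₀ (norm_nonneg _) hη1))
        (pow_lt_one₀ (norm_nonneg _) (D.xi_small j) (pow_ne_zero _ prime_pos.ne'))
    have hsm : ∀ j, ‖peval (RingHom.id C) (b j)
        (D.Phi (η ^ (r' : ℕ) * D.xi j ^ p ^ (s' : ℕ)))‖ < 1 := fun j =>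
      lt_of_le_of_lt (norm_peval_end h1 (hb j) (D.Phi_small _ (hsmall j)).le)
        (D.Phi_small _ (hsmall j))
    have h0 := congrArg (linVec T h) (hrel c hend)
    simp only [hval] at h0
    rw [linVec_zero, linVec_pointSum T h1 hGh _ (fun x hx => by
      obtain ⟨j, rfl⟩ := List.mem_ofFn.mp hx
      exact hsm j), List.map_ofFn, List.sum_ofFn] at h0
    rw [hΨ, ← h0]
    have key : ∀ j, linVec T h (peval (RingHom.id C) (b j)
        (D.Phi (η ^ (r' : ℕ) * D.xi j ^ p ^ (s' : ℕ)))) =
        ∑ r : Fin h, ∑ s : Fin h, jP p (a j r s) • R r s (A (opL n (w ^ (r' : ℕ)) (s' : ℕ) (e j))) := by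
      intro j
      rw [ha j _ (D.Phi_small _ (hsmall j)), D.linearised _ (hsmall j),
        linVec_atom T hη hη1 _ _ (D.xi_small j).le]
      simp [comb, R, A, e, z, w, LinearMap.coe_sum, Finset.sum_apply]
    simp only [Function.comp_apply, key]
    rw [Finset.sum_comm (γ := Fin (n - h))]
    refine Finset.sum_congr rfl fun r _ => ?_
    rw [Finset.sum_comm (γ := Fin (n - h))]
    refine Finset.sum_congr rfl fun s _ => ?_
    simp [v, map_sum, map_smul]
  have hΨ0 : Ψ = 0 := by
    refine LinearMap.ext_on_range (opL_span hw) ?_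
    rintro ⟨r', s'⟩
    exact hgen r' s'
  -- the period matrix is onto
  have hp0 : (0 : ℝ) < (p : ℝ)⁻¹ := inv_pos.mpr (by exact_mod_cast prime_pos)
  obtain ⟨y₀, hy₀, hy₀n⟩ : ∃ y : C, ‖y‖ < 1 ∧ linVec T h y ≠ 0 := by
    obtain ⟨u, hu⟩ := IsAlgClosed.exists_pow_nat_eq (p : PadicComplex p) two_pos
    have hu2 : ‖u‖ ^ 2 = (p : ℝ)⁻¹ := by rw [← norm_pow, hu, norm_p]
    have hu1 : ‖u‖ < 1 := by
      by_contra hge
      have := one_le_pow₀ (n := 2) (not_lt.mp hge)
      linarith [inv_p_lt_one (p := p)]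
    have hu0 : (p : ℝ)⁻¹ < ‖u‖ := by
      have hpos : 0 < ‖u‖ := lt_of_le_of_ne (norm_nonneg _) fun e => by
        rw [← e, zero_pow two_ne_zero] at hu2
        linarith
      nlinarith
    obtain ⟨x, hx1, hx⟩ := T.sharp_surj u hu1.le
    have hxn : ‖x‖ = ‖u‖ := by
      rw [← T.norm_sharp x hx1, show T.sharp x = u + (T.sharp x - u) by ring,
        IsUltrametricDist.norm_add_eq_max_of_norm_ne_norm (ne_of_gt (lt_of_le_of_lt hx hu0)),
        max_eq_left (le_of_lt (lt_of_le_of_lt hx hu0))]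
    have hyn : ‖x ^ (2 * (p + 1))‖ = (p : ℝ)⁻¹ ^ ((p + 1) * 1) := by
      rw [norm_pow, hxn, pow_mul, hu2, mul_one]
    exact ⟨_, by rw [hyn]; exact pow_lt_one₀ hp0.le inv_p_lt_one (by omega),
      linVec_ne_zero_special T h1 le_rfl hyn⟩
  have hrange : LinearMap.range A = ⊤ := by
    have hmem : ∀ y : C, ‖y‖ < 1 → linVec T h y ∈ LinearMap.range A := fun y hy => by
      obtain ⟨u, hu, rfl⟩ := D.Phi_surj y hy
      exact ⟨linVec T n u, (D.linearised u hu).symm⟩
    let ev : ((Fin h → PadicComplex p) →ₗ[PadicComplex p] (Fin h → PadicComplex p)) →ₗ[PadicComplex p]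
        (Fin h → PadicComplex p) := LinearMap.applyₗ (linVec T h y₀)
    have htop : (⊤ : Submodule (PadicComplex p) _) ≤ (LinearMap.range A).comap ev := by
      rw [← opL_span hz, Submodule.span_le]
      rintro _ ⟨⟨r, s⟩, rfl⟩
      show opL h (z ^ (r : ℕ)) (s : ℕ) (linVec T h y₀) ∈ LinearMap.range A
      rw [← linVec_atom T hω hω1 _ _ hy₀.le]
      refine hmem _ ?_
      rw [norm_mul, norm_pow, norm_pow]
      exact lt_of_le_of_lt (mul_le_of_le_one_left (pow_nonneg (norm_nonneg _) _)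
        (pow_le_one₀ (norm_nonneg _) hω1))
        (pow_lt_one₀ (norm_nonneg _) hy₀ (pow_ne_zero _ prime_pos.ne'))
    obtain ⟨i, hi⟩ := Function.ne_iff.mp hy₀n
    refine eq_top_iff.mpr fun u _ => ?_
    have := htop (x := (LinearMap.proj i).smulRight ((linVec T h y₀ i)⁻¹ • u)) trivial
    simpa [ev, smul_smul, mul_inv_cancel₀ (show linVec T h y₀ i ≠ 0 by simpa using hi)] using this
  -- each component vanishes
  have hv : ∀ r s, v r s = 0 := by
    intro r s
    funext i
    have := opL_independent hz (fun r s => v r s i) fun u => by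
      obtain ⟨u', hu'⟩ := LinearMap.range_eq_top.mp hrange u
      have h0 := LinearMap.congr_fun hΨ0 ((LinearMap.proj i).smulRight u')
      rw [hΨ] at h0
      rw [Finset.sum_comm]
      simpa [R, map_smul, hu'] using h0
    exact congrFun (congrFun this r) s
  -- independence of the kernel elements
  have ha0 : ∀ j r s, a j r s = 0 := by
    intro j r s
    suffices hs : (fun j => a j r s) = 0 from congrFun hs j
    refine D.xi_indep _ fun ε hε => ?_
    set N : ℕ → C := fun m => pointSum (hondaIn Gn C)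
      (List.ofFn fun j => nPoint (hondaIn Gn C) ((a j r s).appr m) (D.xi j))
    have hsmall : ∀ m, ‖N m‖ < 1 := fun m => norm_pointSum_lt Gn _ fun x hx => by
      obtain ⟨j, rfl⟩ := List.mem_ofFn.mp hx
      exact norm_nPoint_lt Gn _ (D.xi_small j)
    have hlin : ∀ m, linVec T n (N m) =
        ∑ j, (((a j r s).appr m : ℕ) : PadicComplex p) • e j := fun m => by
      show linVec T n (pointSum (hondaIn Gn C) _) = _
      rw [linVec_pointSum T hn1 hGn _ (fun x hx => by
        obtain ⟨j, rfl⟩ := List.mem_ofFn.mp hx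
        exact norm_nPoint_lt Gn _ (D.xi_small j)), List.map_ofFn, List.sum_ofFn]
      refine Finset.sum_congr rfl fun j _ => ?_
      rw [Function.comp_apply, linVec_nPoint T hn1 hGn _ (D.xi_small j), Nat.cast_smul_eq_nsmul]
    have hto : Tendsto (fun m => linVec T n (N m)) atTop (𝓝 0) := by
      simp only [hlin]
      rw [← hv r s]
      refine tendsto_finsetSum _ fun j _ => Tendsto.smul_const ?_ _
      rw [tendsto_iff_norm_sub_tendsto_zero]
      refine squeeze_zero (fun m => norm_nonneg _) (fun m => ?_)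
        (tendsto_pow_atTop_nhds_zero_of_lt_one hp0.le (inv_p_lt_one (p := p)))
      rw [← map_natCast (jP p), ← map_sub, norm_jP_eq, norm_sub_rev]
      have := (PadicInt.norm_le_pow_iff_mem_span_pow _ m).mpr (PadicInt.appr_spec m (a j r s))
      rwa [zpow_neg, zpow_natCast, ← inv_pow] at this
    obtain ⟨M, hM⟩ := Metric.tendsto_atTop.mp hto (ε ^ p) (pow_pos hε p)
    refine ⟨M, fun m hm => ?_⟩
    have h2 := hM m hm
    rw [dist_zero_right] at h2
    exact lt_of_pow_lt_pow_left₀ p hε.le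
      (lt_of_le_of_lt (pow_le_norm_linVec T hn2 (hsmall m)) h2)
  intro j
  refine eq_zero_of_lin T h1 (hb j) fun y hy => ?_
  rw [ha j y hy]
  simp [comb, ha0]

end Vale.Agent.P217
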